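import Vale.Agent.P179.R2.H46.Core

/-!
# START (ALLB): frozen letters of the pieces
-/

set_option autoImplicit false

namespace Vale.P179.H531

open Subgroup P179H46 P179H524 P179H364W

open scoped Classical

/-- the elements `a` of `i A i` with `P a` are nilpotent or invertible in `i A i` -/
def LocJ {A : Type*} [Ring A] (P : A → Prop) (i : A) : Prop :=
  ∀ a, P a → i * a = a → a * i = a → IsNilpotent a ∨
    ∃ a', i * a' = a' ∧ a' * i = a' ∧ a * a' = i ∧ a' * a = i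

/-- PIECE CENT: a block `e` of `kC` whose defect group `D` is central in `C`: there are no
nilpotent elements in `j k[C/D] j`, and there is only one class of primitive idempotents. -/
def CENT : Prop := ∀ (p : ℕ) [Fact p.Prime] (k : Type) [Field k] [IsAlgClosed k] [CharP k p]
  (C : Type) [Group C] [Fintype C] (D : Subgroup C), IsPGroup p D →
  (∀ d ∈ D, ∀ c, d * c = c * d) → ∀ e : MonoidAlgebra k C, P179C.IsBlock e →
  P179C.IsRelTrace e D → ∀ j : MonoidAlgebra k C, j * j = j → j ≠ 0 → e * j = j →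
  LocJ (fun _ => True) j →
  (∀ ν, j * ν = ν → ν * j = ν → IsNilpotent ν →
    (∑ d : D, MonoidAlgebra.single (d : C) (1 : k)) * ν = 0) ∧
  ∀ j', j' * j' = j' → j' ≠ 0 → e * j' = j' → LocJ (fun _ => True) j' →
    ∃ x y, ¬ IsNilpotent (j * y * j' * x * j)

/-- PIECE NEWN: the new element `n`. -/
def NEWN : Prop := ∀ (p : ℕ) [Fact p.Prime] (k : Type) [Field k] [IsAlgClosed k] [CharP k p]
  (A : Type) [Ring A] [Algebra k A] [FiniteDimensional k A] (D : Type) [Group D] (u : D →* A)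
  (τ : MulAut D) (e : ℕ), e ≠ 0 → e.Coprime p → τ ^ e = 1 →
  ∀ n₀ m₀ : A, n₀ * m₀ = 1 → m₀ * n₀ = 1 → (∀ d, n₀ * u d = u (τ d) * n₀) →
  ∀ i : A, i * i = i → (∀ d, i * u d = u d * i) → LocJ (fun a => ∀ d, a * u d = u d * a) i →
  ∀ x y : A, (∀ d, x * u d = u d * x) → (∀ d, y * u d = u d * y) →
  ¬ IsNilpotent (i * y * (n₀ * i * m₀) * x * i) →
  ∃ n : A, i * n = n ∧ n * i = n ∧ n ^ e * i = i ∧ ∀ d, n * u d = u (τ d) * n

/-- The data of the source idempotent `i`: `D` abelian, `T` the inertial group, `E S` the block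
idempotent of `k C_G(S)` below the Brauer pair. -/
structure SD (p : ℕ) {k : Type} [Field k] {G : Type} [Group G] [Fintype G] (D T : Subgroup G)
    (i : MonoidAlgebra k G) (E : Set G → MonoidAlgebra k G) : Prop where
  pgr : IsPGroup p D
  ab : D ≤ centralizer (D : Set G)
  CT : centralizer (D : Set G) ≤ T
  TN : T ≤ normalizer (D : Set G)
  fxd : Fxd D i
  idem : i * i = i
  loc : LocJ (fun a => Fxd D a) i
  ne : brk D i ≠ 0
  efx : ∀ S : Set G, (∀ s ∈ S, s ∈ D) → Fxd (centralizer S) (E S)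
  esup : ∀ S : Set G, (∀ s ∈ S, s ∈ D) → Sup (centralizer S) (E S)
  eid : ∀ S : Set G, (∀ s ∈ S, s ∈ D) → E S * E S = E S
  /-- fusion -/
  fus : ∀ (S : Set G) (t : G), (∀ s ∈ S, s ∈ D) → (∀ s ∈ S, t⁻¹ * s * t ∈ D) →
    (∃ θ ∈ T, ∀ s ∈ S, t⁻¹ * s * t = θ⁻¹ * s * θ) ∨
      E S * cn t (E ((fun s => t⁻¹ * s * t) '' S)) = 0
  /-- `i` lies below -/
  ei : ∀ Q : Subgroup G, Q ≤ D → E (Q : Set G) * brk Q i = brk Q i
  /-- no nilpotent elements modulo `D` -/
  nil : ∀ ν : MonoidAlgebra k G, Sup (centralizer (D : Set G)) ν → brk D i * ν = ν →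
    ν * brk D i = ν → IsNilpotent ν → (∑ d : D, sg (d : G)) * ν = 0
  /-- one class of primitive idempotents -/
  two : ∀ t ∈ T, ∃ x y : MonoidAlgebra k G, Sup (centralizer (D : Set G)) x ∧
    Sup (centralizer (D : Set G)) y ∧
      ¬ IsNilpotent (brk D i * y * cn t (brk D i) * x * brk D i)

/-- PIECE BAS: the basis of the corner. -/
def BAS : Prop := ∀ (p : ℕ) [Fact p.Prime] (k : Type) [Field k] [IsAlgClosed k] [CharP k p]
  (G : Type) [Group G] [Fintype G] (D T : Subgroup G) (i : MonoidAlgebra k G)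
  (E : Set G → MonoidAlgebra k G), SD p D T i E →
  ∃ b : Module.Basis G k (MonoidAlgebra k G),
    (∀ x ∈ D, ∀ y ∈ D, ∀ g, sg x * b g * sg y = b (x * g * y)) ∧
    (∀ g, i * b g * i = b g ∨ i * b g * i = 0) ∧
    (∀ g, i * b g * i = b g → ∃ θ ∈ T, ∀ x ∈ D, g⁻¹ * x * g ∈ D → g⁻¹ * x * g = θ⁻¹ * x * θ) ∧
    Nat.card {g : G // g ∈ centralizer (D : Set G) ∧ i * b g * i = b g} = Nat.card D

end Vale.P179.H531
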