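import Vale.Agent.P179.H531.St5
import Vale.Agent.P179.H904.Cent3
import Vale.Agent.P179.H190.Newn
import Vale.Agent.P179.H300.Bas

/-!
# START (ALLB): the theorem
-/

namespace Vale.P179.H531

/-- **MODULE STARTR** -/
theorem startr : Vale.P179.Allb.STARTR := startr_of H904.cent H190.newn H300.Bas.bas

/-- **MODULE START** -/
theorem start : Vale.P179.Allb.START := start_of startr

end Vale.P179.H531
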