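import Vale.Agent.P179.H531.S0

/-!
# The module GRP: the group `N_G(P) / O_{p'}(C_G(P))`
-/

namespace Vale.P179.H531

open Finset Subgroup Vale.P179.Sgn

open scoped Classical

set_option linter.unusedSectionVars false

section

variable {p : ℕ} [hp : Fact p.Prime] {G : Type} [Group G] [Fintype G] {P : Sylow p G} {e : ℕ}

theorem eq_one_of_mem_of_mem {O : Subgroup G} (hO : IsO P O) {x : G} (hx : x ∈ P) (hxO : x ∈ O) :
    x = 1 := by
  obtain ⟨m, hm⟩ := P.2 ⟨x, hx⟩
  have hm' : x ^ p ^ m = 1 := congrArg Subtype.val hm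
  have h2 : orderOf x ∣ p ^ m := orderOf_dvd_of_pow_eq_one hm'
  have h3 : Nat.Coprime (orderOf x) (p ^ m) :=
    Nat.Coprime.pow_right m (coprime_iff.2 ((hO x).1 hxO).2)
  exact orderOf_eq_one_iff.1 (Nat.eq_one_of_dvd_coprimes h3 dvd_rfl h2)

/-- **Module GRP.** -/
theorem grp : GRP := by
  intro p hp G _ _ P e h
  have hD := freeSyl h
  obtain ⟨u, hu, hu1⟩ := exists_ne h
  obtain ⟨O, hO, hOcard, hfac⟩ := hD.exists_O hu hu1
  have hO : IsO P O := hO
  set N : Subgroup G := normalizer ((P : Subgroup G) : Set G) with hN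
  have hPN : (P : Subgroup G) ≤ N := Subgroup.le_normalizer
  have hON : O ≤ N := fun x hx => centralizer_le_normalizer _ ((hO x).1 hx).1
  have hCN : centralizer ((P : Subgroup G) : Set G) ≤ N := centralizer_le_normalizer _
  have hnO : (O.subgroupOf N).Normal := ⟨fun x hx n => by
    rw [mem_subgroupOf] at hx ⊢
    exact (hO.conj (n := (n : G)) n.2 x).2 hx⟩
  -- the centraliser is normal in the normaliser
  let C' : Subgroup N := (centralizer ((P : Subgroup G) : Set G)).subgroupOf N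
  have hC'mem : ∀ n : N, n ∈ C' ↔ (n : G) ∈ centralizer ((P : Subgroup G) : Set G) :=
    fun n => mem_subgroupOf
  have hnC : C'.Normal := ⟨fun c hc n => by
    rw [hC'mem] at hc ⊢
    have hc' : (c : G) ∈ centralizer ((P : Subgroup G) : Set G) := hc
    rw [mem_centralizer_iff] at hc' ⊢
    intro d hd
    have h0 := (mem_normalizer_iff.1 (inv_mem n.2) d).1 hd
    rw [inv_inv] at h0
    have h2 := hc' _ h0
    have h3 : ((n * c * n⁻¹ : N) : G) = n * c * (n : G)⁻¹ := rfl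
    rw [h3]
    calc d * (n * c * (n : G)⁻¹) = n * ((n : G)⁻¹ * d * n * c) * (n : G)⁻¹ := by group
      _ = n * (c * ((n : G)⁻¹ * d * n)) * (n : G)⁻¹ := by rw [h2]
      _ = n * c * (n : G)⁻¹ * d := by group⟩
  obtain ⟨t0, ht0, hgen⟩ := h.gen
  let t0' : N := ⟨t0, ht0⟩
  have hidx : C'.index = e := h.idx
  have hgen' : ∀ x : N ⧸ C', x ∈ zpowers (QuotientGroup.mk t0' : N ⧸ C') := by
    intro x
    obtain ⟨n, rfl⟩ := QuotientGroup.mk_surjective x
    obtain ⟨i, hi⟩ := hgen n n.2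
    refine ⟨-(i : ℤ), ?_⟩
    change (QuotientGroup.mk t0' : N ⧸ C') ^ (-(i : ℤ)) = QuotientGroup.mk n
    rw [← QuotientGroup.mk_zpow, QuotientGroup.eq, hC'mem]
    have h3 : (((t0' ^ (-(i : ℤ)))⁻¹ * n : N) : G) = t0 ^ i * n := by
      rw [zpow_neg, inv_inv, zpow_natCast]
      rfl
    rw [h3]
    exact hi
  have hord : orderOf (QuotientGroup.mk t0' : N ⧸ C') = e := by
    rw [orderOf_eq_card_of_forall_mem_zpowers hgen', ← hidx]
    rfl
  have hpow : ∀ i : ℕ, t0 ^ i ∈ centralizer ((P : Subgroup G) : Set G) ↔ e ∣ i := by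
    intro i
    rw [← hord, orderOf_dvd_iff_pow_eq_one, ← QuotientGroup.mk_pow, QuotientGroup.eq_one_iff,
      hC'mem]
    rfl
  have hpe : ¬ p ∣ e := by
    rw [← hidx]
    have h1 : ¬ p ∣ ((P : Subgroup G).subgroupOf N).index := (P.subtype hPN).not_dvd_index
    refine fun hdvd => h1 (hdvd.trans (Subgroup.index_dvd_of_le ?_))
    intro x hx
    rw [mem_subgroupOf] at hx
    exact (hC'mem x).2 (hD.le_cent hx)
  -- the quotient group
  let q : N →* N ⧸ (O.subgroupOf N) := QuotientGroup.mk' _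
  have hq : Function.Surjective q := QuotientGroup.mk'_surjective _
  have hker : ∀ n : N, q n = 1 ↔ (n : G) ∈ O := fun n => by
    change (QuotientGroup.mk n : N ⧸ (O.subgroupOf N)) = 1 ↔ _
    rw [QuotientGroup.eq_one_iff, mem_subgroupOf]
  let D : Subgroup (N ⧸ (O.subgroupOf N)) := ((P : Subgroup G).subgroupOf N).map q
  have hDmem : ∀ n : N, q n ∈ D ↔ (n : G) ∈ centralizer ((P : Subgroup G) : Set G) := by
    intro n
    constructor
    · intro hn
      obtain ⟨x, hx, hxn⟩ := mem_map.1 hn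
      have h1 : q (x⁻¹ * n) = 1 := by rw [map_mul, map_inv, hxn, inv_mul_cancel]
      rw [hker] at h1
      have h2 : ((x : G))⁻¹ * n ∈ centralizer ((P : Subgroup G) : Set G) := ((hO _).1 h1).1
      have h3 : (x : G) ∈ centralizer ((P : Subgroup G) : Set G) :=
        hD.le_cent (mem_subgroupOf.1 hx)
      have h4 := mul_mem h3 h2
      rwa [mul_inv_cancel_left] at h4
    · intro hn
      obtain ⟨o, ho, d, hd, hod⟩ := hfac (n : G) hn
      refine mem_map.2 ⟨⟨d, hPN hd⟩, mem_subgroupOf.2 hd, ?_⟩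
      have h1 : q (⟨o, hON ho⟩ : N) = 1 := (hker _).2 ho
      have h2 : n = (⟨o, hON ho⟩ : N) * ⟨d, hPN hd⟩ := Subtype.ext hod
      rw [h2, map_mul, h1, one_mul]
  have hDel : ∀ γ ∈ D, ∃ x : G, ∃ hx : x ∈ P, q ⟨x, hPN hx⟩ = γ := by
    intro γ hγ
    obtain ⟨x, hx, rfl⟩ := mem_map.1 hγ
    exact ⟨x, mem_subgroupOf.1 hx, rfl⟩
  let m := Nat.card P
  have hme : Nat.Coprime m e := by
    obtain ⟨b, hb⟩ := IsPGroup.iff_card.1 P.2
    have hb : m = p ^ b := hb
    rw [hb]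
    exact Nat.Coprime.pow_left b ((Nat.Prime.coprime_iff_not_dvd hp.1).2 hpe)
  have hDpow : ∀ γ ∈ D, γ ^ m = 1 := by
    intro γ hγ
    obtain ⟨x, hx, rfl⟩ := hDel γ hγ
    rw [← map_pow]
    have h1 : (⟨x, hPN hx⟩ : N) ^ m = 1 := by
      have h2 : (⟨x, hx⟩ : (P : Subgroup G)) ^ m = 1 := pow_card_eq_one'
      have h3 : x ^ m = 1 := congrArg Subtype.val h2
      exact Subtype.ext h3
    rw [h1, map_one]
  let t : N ⧸ (O.subgroupOf N) := q t0' ^ m
  have htpow : ∀ i : ℕ, t ^ i = q (t0' ^ (m * i)) := fun i => by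
    change (q t0' ^ m) ^ i = _
    rw [← pow_mul, ← map_pow]
  have htD : ∀ i : ℕ, t ^ i ∈ D ↔ e ∣ i := by
    intro i
    rw [htpow, hDmem]
    have h1 : ((t0' ^ (m * i) : N) : G) = t0 ^ (m * i) := rfl
    rw [h1, hpow]
    exact ⟨fun h2 => (Nat.Coprime.symm hme).dvd_of_dvd_mul_left h2, fun h2 => h2.mul_left _⟩
  have hte : t ^ e = 1 := by
    have h1 : q t0' ^ e ∈ D := by
      rw [← map_pow, hDmem]
      exact (hpow e).2 dvd_rfl
    change (q t0' ^ m) ^ e = 1
    rw [← pow_mul, mul_comm, pow_mul]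
    exact hDpow _ h1
  have hord_t : orderOf t = e := by
    refine Nat.dvd_antisymm (orderOf_dvd_of_pow_eq_one hte) ?_
    rw [← htD, pow_orderOf_eq_one]
    exact one_mem _
  refine ⟨N ⧸ (O.subgroupOf N), inferInstance, Fintype.ofFinite _, q, hq, ?_, D, t, ?_, ?_, ?_, ?_,
    hord_t, ?_, ?_⟩
  · intro n
    rw [hker, hO, coprime_iff]
    rfl
  · have hPn : ((P : Subgroup G).subgroupOf N).Normal := Subgroup.normal_in_normalizer
    exact hPn.map q hq
  · rintro ⟨γ, hγ⟩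
    obtain ⟨b, hb⟩ := IsPGroup.iff_card.1 P.2
    refine ⟨b, Subtype.ext ?_⟩
    have h1 := hDpow γ hγ
    have hb : m = p ^ b := hb
    rw [hb] at h1
    exact h1
  · intro x' hx' y' hy'
    obtain ⟨x, hx, rfl⟩ := hDel x' hx'
    obtain ⟨y, hy, rfl⟩ := hDel y' hy'
    rw [← map_mul, ← map_mul]
    congr 1
    exact Subtype.ext (h.comm x hx y hy)
  · intro hbot
    have h1 : q ⟨u, hPN hu⟩ ∈ D := mem_map.2 ⟨⟨u, hPN hu⟩, mem_subgroupOf.2 hu, rfl⟩
    rw [hbot, Subgroup.mem_bot, hker] at h1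
    exact hu1 (eq_one_of_mem_of_mem hO hu h1)
  · refine isComplement'_of_disjoint_and_mul_eq_univ ?_ ?_
    · rw [Subgroup.disjoint_def]
      intro γ hγ hγt
      rw [← mem_powers_iff_mem_zpowers] at hγt
      obtain ⟨i, rfl⟩ := hγt
      have h1 := (htD i).1 hγ
      change t ^ i = 1
      rw [← orderOf_dvd_iff_pow_eq_one, hord_t]
      exact h1
    · rw [Set.eq_univ_iff_forall]
      intro γ
      obtain ⟨n, rfl⟩ := hq γ
      obtain ⟨i, hi⟩ := hgen n n.2
      have hcop : Nat.Coprime m (orderOf (QuotientGroup.mk t0' : N ⧸ C')) := by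
        rw [hord]; exact hme
      obtain ⟨j, hj⟩ := exists_pow_eq_self_of_coprime hcop
      -- `n * t0 ^ (m * j * i)` centralises `P`
      have h1 : n * t0' ^ (m * (j * i)) ∈ C' := by
        rw [← QuotientGroup.eq_one_iff, QuotientGroup.mk_mul, QuotientGroup.mk_pow, pow_mul,
          pow_mul, hj]
        have h2 : (QuotientGroup.mk t0' : N ⧸ C') ^ i * QuotientGroup.mk n = 1 := by
          rw [← QuotientGroup.mk_pow, ← QuotientGroup.mk_mul, QuotientGroup.eq_one_iff, hC'mem]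
          exact hi
        rw [mul_eq_one_iff_eq_inv] at h2 ⊢
        rw [h2, inv_inv]
      have h3 : q n * t ^ (j * i) ∈ D := by
        rw [htpow, ← map_mul, hDmem]
        exact (hC'mem _).1 h1
      refine Set.mem_mul.2 ⟨q n * t ^ (j * i), h3, (t ^ (j * i))⁻¹,
        inv_mem (pow_mem (mem_zpowers t) _), ?_⟩
      rw [mul_inv_cancel_right]
  · intro i d hd hd1 hcomm
    obtain ⟨x, hx, rfl⟩ := hDel d hd
    have hx1 : x ≠ 1 := by
      rintro rfl
      exact hd1 (map_one q)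
    rw [htpow, ← map_mul, ← map_mul] at hcomm
    set n : N := t0' ^ (m * i) with hn
    have h1 : q (⟨x, hPN hx⟩⁻¹ * (n * ⟨x, hPN hx⟩ * n⁻¹)) = 1 := by
      rw [map_mul, map_mul, hcomm, map_mul, map_inv, map_inv]
      group
    rw [hker] at h1
    have h2 : x⁻¹ * ((n : G) * x * (n : G)⁻¹) ∈ O := h1
    have h3 : x⁻¹ * ((n : G) * x * (n : G)⁻¹) ∈ P :=
      mul_mem (inv_mem hx) ((mem_normalizer_iff.1 n.2 x).1 hx)
    have h4 := eq_one_of_mem_of_mem hO h3 h2
    have h5 : (n : G) * x = x * n := by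
      have h6 : (n : G) * x * (n : G)⁻¹ = x := by
        rw [inv_mul_eq_one] at h4
        exact h4.symm
      exact mul_inv_eq_iff_eq_mul.1 h6
    have h7 := h.free n n.2 x hx hx1 h5
    rw [← hDmem, hn, ← htpow, htD] at h7
    exact h7

end

end Vale.P179.H531
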