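import Vale.Agent.P179.H531.Out
import Vale.Agent.P179.H875.S0cData

/-!
# The output of the module S0a'
-/

namespace Vale.P179.H531

open Finset MonoidAlgebra Subgroup

open scoped Classical IsMulCommutative

set_option linter.unusedSectionVars false

section

variable {p : ℕ} [hp : Fact p.Prime] {k : Type*} [Field k] [CharP k p]
  {G : Type*} [Group G] [Fintype G] {D : Sylow p G}

theorem rs_eq_resN (N : Subgroup G) (a : MonoidAlgebra k G) :
    rs (N : Set G) a = H875.resN k N a := by
  ext x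
  rw [coeff_rs, H875.coeff_resN]
  rfl

/-- **The output of the module S0a'**: for an abelian Sylow `p`-subgroup `D ≠ 1` of `G` on which
`N_G(D)/C_G(D)` acts freely, and every central idempotent `b0` of augmentation `1`, the idempotent
`f` and the unit `c`. -/
theorem exists_cinput (hD : FreeSyl D) (hD1 : ∃ u ∈ D, u ≠ 1) {O : Subgroup G} (hO : IsO D O)
    {b0 : MonoidAlgebra k G} (hB : H875.BInput k b0) :
    ∃ f c : MonoidAlgebra k G, H875.CInput k (D : Subgroup G) (normalizer (D : Set G)) O b0 f c := by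
  obtain ⟨f, hff, hb0f, haug, hfN, hfO, hf⟩ := exists_f hD hD1 hO (b0 := b0)
    (fun g => hB.central _) hB.idem (by rw [aug_eq]; exact hB.aug)
  obtain ⟨u, hu, hu1⟩ := hD1
  obtain ⟨c, hcN, hcs, hcO, hc⟩ := exists_c hD hu hu1 hO hfN hfO hf
  refine ⟨f, c, ⟨hff, hb0f, ?_, hfN, hfO, hcN, ?_, hcO, ?_, ?_⟩⟩
  · rw [← aug_eq, haug]
  · rw [← rs_eq_resN, rs_of_spt hcs]
  · rw [← rs_eq_resN, hc, av]
    congr 1
    rw [ss, ← Finset.sum_coe_sort]
    refine Fintype.sum_equiv (Equiv.subtypeEquivRight fun x => ?_) _ _ fun x => rfl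
    rw [mem_filter]
    exact ⟨fun h => h.2, fun h => ⟨mem_univ _, h⟩⟩
  · intro x hx y hy hxy g h hg hh
    rw [← rs_eq_resN]
    exact phi_vanish hD hO hfN hf hcN hcO hc hx hy hxy hg hh

end

end Vale.P179.H531
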