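import Mathlib

/-!
# Centralisers of the elements of an abelian Sylow subgroup on which the inertial quotient acts
freely
-/

namespace Vale.P179.H531

open Subgroup

section

variable {p : ℕ} [hp : Fact p.Prime] {G : Type*} [Group G] [Finite G]

/-- `D` is an abelian Sylow `p`-subgroup and `N_G(D)/C_G(D)` acts freely on `D \ {1}` -/
structure FreeSyl (D : Sylow p G) : Prop where
  ab : ∀ a ∈ D, ∀ b ∈ D, a * b = b * a
  free : ∀ u ∈ D, u ≠ 1 → ∀ n ∈ normalizer (D : Set G), n * u = u * n →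
    n ∈ centralizer (D : Set G)

variable {D : Sylow p G}

theorem orderOf_eq_one_of_pgroup {P : Type*} [Group P] (hP : IsPGroup p P) {x : P} {n : ℕ}
    (hn : ¬ p ∣ n) (h : orderOf x ∣ n) : x = 1 := by
  obtain ⟨m, hm⟩ := hP x
  have h1 : orderOf x ∣ p ^ m := orderOf_dvd_of_pow_eq_one hm
  have h2 : Nat.Coprime (p ^ m) n := Nat.Coprime.pow_left m ((Nat.Prime.coprime_iff_not_dvd hp.1).2 hn)
  have h3 : orderOf x = 1 := Nat.eq_one_of_dvd_coprimes h2 h1 h
  exact orderOf_eq_one_iff.1 h3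

theorem FreeSyl.exists_compl (hD : FreeSyl D) {u : G} (hu : u ∈ D) (hu1 : u ≠ 1) :
    ∃ K : Subgroup G, (∀ x, x ∈ K ↔ (x * u = u * x ∧ ¬ p ∣ orderOf x)) ∧ ¬ p ∣ Nat.card K ∧
      ∀ x, x * u = u * x → ∃ κ ∈ K, ∃ d ∈ D, x = κ * d := by
  let H := centralizer ({u} : Set G)
  have hH : ∀ x, x ∈ H ↔ x * u = u * x := fun x => by
    rw [mem_centralizer_singleton_iff]
  have hPH : (D : Subgroup G) ≤ H := fun x hx => (hH x).2 (hD.ab x hx u hu)
  let PH : Sylow p H := D.subtype hPH
  have hmem : ∀ x : H, x ∈ PH ↔ (x : G) ∈ D := fun x => Iff.rfl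
  have hN : normalizer (PH : Set H) ≤ centralizer (PH : Set H) := by
    intro n hn
    have h1 : (n : G) ∈ normalizer ((D : Subgroup G) : Set G) := by
      have hn : n ∈ normalizer ((PH : Subgroup H) : Set H) := hn
      rw [mem_normalizer_iff] at hn ⊢
      intro x
      constructor
      · intro hx
        have := (hn ⟨x, hPH hx⟩).1 ((hmem _).2 hx)
        exact (hmem _).1 this
      · intro hx
        have h2 : (n : G)⁻¹ * ((n : G) * x * (n : G)⁻¹) * n ∈ H := by
          exact mul_mem (mul_mem (inv_mem n.2) (hPH hx)) n.2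
        have h3 : (n : G)⁻¹ * ((n : G) * x * (n : G)⁻¹) * n = x := by group
        rw [h3] at h2
        exact (hmem _).1 ((hn ⟨x, h2⟩).2 ((hmem _).2 hx))
    have h2 : (n : G) ∈ centralizer (D : Set G) := hD.free u hu hu1 _ h1 ((hH _).1 n.2)
    rw [mem_centralizer_iff] at h2 ⊢
    intro x hx
    exact Subtype.ext (h2 x.1 ((hmem x).1 hx))
  let f := MonoidHom.transferSylow PH hN
  have hc := MonoidHom.ker_transferSylow_isComplement' PH hN
  have hcardK : ¬ p ∣ Nat.card f.ker := MonoidHom.not_dvd_card_ker_transferSylow PH hN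
  refine ⟨f.ker.map H.subtype, ?_, ?_, ?_⟩
  · intro x
    constructor
    · intro hx
      obtain ⟨y, hy, rfl⟩ := mem_map.1 hx
      refine ⟨(hH _).1 y.2, fun h1 => hcardK (h1.trans ?_)⟩
      have h2 : orderOf (H.subtype y) = orderOf (⟨y, hy⟩ : f.ker) := by
        rw [orderOf_injective H.subtype H.subtype_injective]
        exact (orderOf_injective f.ker.subtype f.ker.subtype_injective ⟨y, hy⟩)
      rw [h2]
      exact orderOf_dvd_natCard _
    · rintro ⟨h1, h2⟩
      have hxH : x ∈ H := (hH x).2 h1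
      refine mem_map.2 ⟨⟨x, hxH⟩, ?_, rfl⟩
      rw [MonoidHom.mem_ker]
      have h3 : orderOf (f ⟨x, hxH⟩) ∣ orderOf x := by
        have h4 := orderOf_map_dvd f (⟨x, hxH⟩ : H)
        rwa [← orderOf_injective H.subtype H.subtype_injective] at h4
      exact orderOf_eq_one_of_pgroup PH.2 h2 h3
  · rw [Nat.card_congr (f.ker.equivMapOfInjective H.subtype H.subtype_injective).toEquiv.symm]
    exact hcardK
  · intro x hx
    have hxH : x ∈ H := (hH x).2 hx
    obtain ⟨⟨⟨κ, hκ⟩, ⟨d, hd⟩⟩, h, -⟩ := hc.existsUnique ⟨x, hxH⟩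
    refine ⟨κ, mem_map.2 ⟨κ, hκ, rfl⟩, d, hd, ?_⟩
    exact (congrArg Subtype.val h).symm

end

end Vale.P179.H531
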