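import Vale.Agent.P179.H531.Br
import Vale.Agent.P179.H531.Grp

/-!
# Averages over subgroups, counting modulo `p`
-/

namespace Vale.P179.H531

open Finset MonoidAlgebra Subgroup

open scoped Classical

set_option linter.unusedSectionVars false

set_option linter.unusedVariables false

section

variable {k : Type*} [Field k] {G : Type*} [Group G] [Fintype G]

/-- the sum of the elements of a set -/
noncomputable def ss (k : Type*) [Field k] (S : Set G) : MonoidAlgebra k G :=
  ∑ x : G with x ∈ S, single x 1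

theorem coeff_ss (S : Set G) (x : G) : (ss k S).coeff x = if x ∈ S then 1 else 0 := by
  rw [ss, MonoidAlgebra.coeff_sum, Finsupp.finsetSum_apply]
  by_cases hx : x ∈ S
  · rw [if_pos hx, Finset.sum_eq_single x]
    · simp
    · intro y _ hy
      rw [MonoidAlgebra.coeff_single, Finsupp.single_apply, if_neg hy]
    · intro h
      exact absurd (mem_filter.2 ⟨mem_univ _, hx⟩) h
  · rw [if_neg hx]
    refine Finset.sum_eq_zero fun y hy => ?_
    rw [MonoidAlgebra.coeff_single, Finsupp.single_apply, if_neg]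
    rintro rfl
    exact hx (mem_filter.1 hy).2

theorem ss_spt (S : Set G) : Spt S (ss k S) := fun x hx => by rw [coeff_ss, if_neg hx]

theorem rs_ss (S T : Set G) : rs S (ss k T) = ss k (S ∩ T) := by
  ext x
  rw [coeff_rs, coeff_ss, coeff_ss]
  by_cases h1 : x ∈ S <;> by_cases h2 : x ∈ T <;> simp [h1, h2]

theorem commute_ss {g : G} {S : Set G} (h : ∀ x, g * x * g⁻¹ ∈ S ↔ x ∈ S) :
    single g 1 * ss k S = ss k S * single g 1 := by
  rw [commute_iff]
  intro x
  rw [coeff_ss, coeff_ss]
  simp only [h x]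

/-- the average over the subgroup `K` -/
noncomputable def av (k : Type*) [Field k] (K : Subgroup G) : MonoidAlgebra k G :=
  (Nat.card K : k)⁻¹ • ss k (K : Set G)

theorem coeff_av (K : Subgroup G) (x : G) :
    (av k K).coeff x = if x ∈ K then (Nat.card K : k)⁻¹ else 0 := by
  rw [av, MonoidAlgebra.coeff_smul, Finsupp.smul_apply, coeff_ss]
  by_cases hx : x ∈ K
  · rw [if_pos (SetLike.mem_coe.2 hx), if_pos hx, smul_eq_mul, mul_one]
  · rw [if_neg (fun h => hx (SetLike.mem_coe.1 h)), if_neg hx, smul_zero]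

theorem av_spt (K : Subgroup G) : Spt (K : Set G) (av k K) := fun x hx => by
  rw [coeff_av, if_neg (fun h => hx (SetLike.mem_coe.2 h))]

theorem single_mul_av {K : Subgroup G} {x : G} (hx : x ∈ K) : single x 1 * av k K = av k K := by
  ext y
  rw [coeff_single_mul, coeff_av, coeff_av]
  simp only [Subgroup.mul_mem_cancel_left K (inv_mem hx)]

theorem av_mul_single {K : Subgroup G} {x : G} (hx : x ∈ K) : av k K * single x 1 = av k K := by
  ext y
  rw [coeff_mul_single, coeff_av, coeff_av]
  simp only [Subgroup.mul_mem_cancel_right K (inv_mem hx)]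

theorem commute_av {g : G} {K : Subgroup G} (h : ∀ x, g * x * g⁻¹ ∈ K ↔ x ∈ K) :
    single g 1 * av k K = av k K * single g 1 := by
  rw [av, mul_smul_comm, smul_mul_assoc, commute_ss (fun x => by
    rw [SetLike.mem_coe, SetLike.mem_coe]; exact h x)]

theorem card_filter_mem (K : Subgroup G) :
    (univ.filter fun x : G => x ∈ (K : Set G)).card = Nat.card K := by
  rw [Nat.card_eq_fintype_card]
  exact (Fintype.card_of_subtype _ (fun x => by simp)).symm

theorem av_mul_of_left {H K : Subgroup G} (h : H ≤ K) (hH : (Nat.card H : k) ≠ 0) :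
    av k H * av k K = av k K := by
  have h1 : ∀ x ∈ (univ.filter fun x : G => x ∈ (H : Set G)),
      single x 1 * av k K = av k K := fun x hx => single_mul_av (h (mem_filter.1 hx).2)
  have h2 : ss k (H : Set G) * av k K = (Nat.card H : k) • av k K := by
    rw [ss, Finset.sum_mul, Finset.sum_congr rfl h1, sum_const, card_filter_mem,
      ← Nat.cast_smul_eq_nsmul k]
  rw [av, smul_mul_assoc, h2, smul_smul, inv_mul_cancel₀ hH, one_smul]

theorem av_mul_of_right {H K : Subgroup G} (h : H ≤ K) (hH : (Nat.card H : k) ≠ 0) :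
    av k K * av k H = av k K := by
  have h1 : ∀ x ∈ (univ.filter fun x : G => x ∈ (H : Set G)),
      av k K * single x 1 = av k K := fun x hx => av_mul_single (h (mem_filter.1 hx).2)
  have h2 : av k K * ss k (H : Set G) = (Nat.card H : k) • av k K := by
    rw [ss, Finset.mul_sum, Finset.sum_congr rfl h1, sum_const, card_filter_mem,
      ← Nat.cast_smul_eq_nsmul k]
  rw [av.eq_1 k H, mul_smul_comm, h2, smul_smul, inv_mul_cancel₀ hH, one_smul]

theorem av_mul_self {K : Subgroup G} (hK : (Nat.card K : k) ≠ 0) : av k K * av k K = av k K :=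
  av_mul_of_left le_rfl hK

/-- an element commuting with the elements of a subgroup commutes with the elements supported
on it -/
theorem commute_of_spt {H : Subgroup G} {a b : MonoidAlgebra k G}
    (ha : ∀ g ∈ H, single g 1 * a = a * single g 1) (hb : Spt (H : Set G) b) : b * a = a * b := by
  have h1 : b = ∑ x : G, b.coeff x • single x 1 := by
    ext y
    rw [MonoidAlgebra.coeff_sum, Finsupp.finsetSum_apply, Finset.sum_eq_single y]
    · simp
    · intro z _ hz
      rw [MonoidAlgebra.coeff_smul, Finsupp.smul_apply, MonoidAlgebra.coeff_single,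
        Finsupp.single_apply, if_neg hz, smul_zero]
    · intro h
      exact absurd (mem_univ _) h
  rw [h1, Finset.sum_mul, Finset.mul_sum]
  refine Finset.sum_congr rfl fun x _ => ?_
  by_cases hx : x ∈ H
  · rw [smul_mul_assoc, mul_smul_comm, ha x hx]
  · rw [hb x hx, zero_smul, zero_mul, mul_zero]

end

section

variable {p : ℕ} [hp : Fact p.Prime] {G : Type*} [Group G] [Fintype G] {D : Sylow p G}

theorem FreeSyl.cent_le (hD : FreeSyl D) {u : G} (hu : u ∈ D) {x : G}
    (hx : x ∈ centralizer (D : Set G)) : x * u = u * x :=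
  (mem_centralizer_iff.1 hx u hu).symm

theorem FreeSyl.le_cent (hD : FreeSyl D) : (D : Subgroup G) ≤ centralizer (D : Set G) :=
  fun x hx => mem_centralizer_iff.2 fun y hy => hD.ab y hy x hx

/-- `N ∩ C(u) = C(D)` -/
theorem FreeSyl.norm_inter (hD : FreeSyl D) {u : G} (hu : u ∈ D) (hu1 : u ≠ 1) {x : G} :
    (x ∈ normalizer (D : Set G) ∧ x * u = u * x) ↔ x ∈ centralizer (D : Set G) :=
  ⟨fun h => hD.free u hu hu1 x h.1 h.2, fun h => ⟨centralizer_le_normalizer _ h, hD.cent_le hu h⟩⟩

/-- the set of the `p'`-elements of the centraliser of `D` is a normal complement -/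
theorem FreeSyl.exists_O (hD : FreeSyl D) {u : G} (hu : u ∈ D) (hu1 : u ≠ 1) :
    ∃ O : Subgroup G, (∀ x, x ∈ O ↔ (x ∈ centralizer (D : Set G) ∧ ¬ p ∣ orderOf x)) ∧
      ¬ p ∣ Nat.card O ∧
      ∀ x ∈ centralizer (D : Set G), ∃ o ∈ O, ∃ d ∈ D, x = o * d := by
  obtain ⟨K, hK, hcard, hfac⟩ := hD.exists_compl hu hu1
  refine ⟨K ⊓ centralizer (D : Set G), ?_, ?_, ?_⟩
  · intro x
    rw [Subgroup.mem_inf, hK]
    exact ⟨fun h => ⟨h.2, h.1.2⟩, fun h => ⟨⟨hD.cent_le hu h.1, h.2⟩, h.1⟩⟩
  · exact fun h => hcard (h.trans (card_dvd_of_le inf_le_left))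
  · intro x hx
    obtain ⟨κ, hκ, d, hd, rfl⟩ := hfac x (hD.cent_le hu hx)
    refine ⟨κ, Subgroup.mem_inf.2 ⟨hκ, ?_⟩, d, hd, rfl⟩
    exact (mul_mem_cancel_right (hD.le_cent hd)).1 hx

/-- number of elements modulo `p`: conjugation by `D` -/
theorem card_modEq_of_conj {S T : Set G} (hS : ∀ d ∈ D, ∀ x ∈ S, d * x * d⁻¹ ∈ S)
    (hT : ∀ x, x ∈ T ↔ x ∈ S ∧ x ∈ centralizer (D : Set G)) :
    Nat.card S ≡ Nat.card T [MOD p] := by
  let act : MulAction (D : Subgroup G) S :=
    { smul := fun d x => ⟨d * x * (d : G)⁻¹, hS d d.2 x x.2⟩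
      one_smul := fun x => Subtype.ext (by
        change ((1 : (D : Subgroup G)) : G) * x * ((1 : (D : Subgroup G)) : G)⁻¹ = x
        simp)
      mul_smul := fun d d' x => Subtype.ext (by
        change ((d * d' : (D : Subgroup G)) : G) * x * ((d * d' : (D : Subgroup G)) : G)⁻¹ =
          d * (d' * x * (d' : G)⁻¹) * (d : G)⁻¹
        rw [Subgroup.coe_mul]
        group) }
  have h1 := D.2.card_modEq_card_fixedPoints S
  have h2 : Nat.card (MulAction.fixedPoints (D : Subgroup G) S) = Nat.card T := by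
    refine Nat.card_congr
      { toFun := fun x => ⟨x.1.1, (hT _).2 ⟨x.1.2, ?_⟩⟩
        invFun := fun x => ⟨⟨x.1, ((hT _).1 x.2).1⟩, fun d => Subtype.ext ?_⟩
        left_inv := fun x => rfl
        right_inv := fun x => rfl }
    · rw [mem_centralizer_iff]
      intro d hd
      have h3 := congrArg Subtype.val (x.2 ⟨d, hd⟩)
      exact mul_inv_eq_iff_eq_mul.1 h3
    · have h3 := mem_centralizer_iff.1 ((hT _).1 x.2).2 d d.2
      exact mul_inv_eq_iff_eq_mul.2 h3
  rwa [h2] at h1

end

end Vale.P179.H531
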