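import Vale.Agent.P179.H531.St6
import Vale.Agent.P179.Rel.Defs

/-!
# REL (P179): MODULE BLKR, the lower bound for blocks from `LOWERR`
-/

set_option autoImplicit false

namespace Vale.P179.H531

open Subgroup Vale.P179.Allb

open P179B (inertialGroup inertialIndex regularElements)

/-- **MODULE BLKR** -/
theorem blkr (hL : Vale.P179.Rel.LOWERR) : Vale.P179.Rel.BLKR := by
  intro p _ k _ _ _ G _ _ B hB D hD b hb hbB D1 D2 h
  obtain ⟨t, ht, hgen⟩ := h.cyc
  have h1D : D1 ≤ D := by rw [← h.sup]; exact le_sup_left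
  have h2D : D2 ≤ D := by rw [← h.sup]; exact le_sup_right
  have hD1 : D ≠ ⊥ := by
    intro h0
    apply h.ne
    rw [eq_bot_iff, ← h0]
    exact h1D
  obtain ⟨D', _, _, _, τ, Λ, _, _, A, f, he0, hτ, hf, hl⟩ :=
    startr p k G B hB D hD h.comm hD1 b hb hbB t ht hgen
  have : Fintype G := Fintype.ofFinite G
  have : NeZero (inertialIndex D b) := ⟨he0⟩
  have hfm : ∀ (m : ℕ) (x : D'), (f ((τ ^ m) x) : G) = t ^ m * f x * (t ^ m)⁻¹ := by
    intro m
    induction m with
    | zero => intro x; simp
    | succ m ih =>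
      intro x
      rw [pow_succ', MulAut.mul_apply, hf, ih, pow_succ']
      group
  have hT : inertialGroup D b ≤ normalizer (D : Set G) := fun n hn => hn.1
  have hCT : centralizer (D : Set G) ≤ inertialGroup D b := by
    intro c hc
    refine ⟨?_, fun x y h => ?_⟩
    · rw [mem_normalizer_iff]
      intro d
      constructor
      · intro hd
        have h1 := mem_centralizer_iff.1 hc d hd
        rw [← h1, mul_inv_cancel_right]
        exact hd
      · intro hd
        have h1 := mem_centralizer_iff.1 hc _ hd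
        have h2 : d = c * d * c⁻¹ := by
          have h3 : c * d = c * (c * d * c⁻¹) := by rw [← h1]; group
          exact mul_left_cancel h3
        rw [h2]
        exact hd
    · have h1 := (P179C.mem_center_iff _).1 hb.1
      have h2 : y = (⟨c, hc⟩ : centralizer (D : Set G)) * x * (⟨c, hc⟩)⁻¹ := Subtype.ext h
      rw [h2]
      exact h1 _ _
  let E : Subgroup G → Subgroup D' := fun X => (X.subgroupOf D).comap (f : D' →* D)
  have hE : ∀ (X : Subgroup G) (x : D'), x ∈ E X ↔ (f x : G) ∈ X := fun X x => Iff.rfl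
  have hTWR : Vale.P179.Rel.TWR p D' τ (inertialIndex D b) (E D1) (E D2) := by
    refine { toTW0 := hτ, s1 := ?_, s2 := ?_, dis := ?_, sup := ?_, ne := ?_, free1 := ?_ }
    · intro x hx
      rw [hE, hf]
      exact h.s1 t ht _ hx
    · intro x hx
      rw [hE, hf]
      exact h.s2 t ht _ hx
    · rw [eq_bot_iff]
      rintro x ⟨hx1, hx2⟩
      have h1 : (f x : G) ∈ D1 ⊓ D2 := ⟨hx1, hx2⟩
      rw [h.dis, mem_bot] at h1
      rw [mem_bot]
      apply f.injective
      rw [map_one]
      exact Subtype.ext h1
    · rw [eq_top_iff]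
      intro x _
      have h1 : (f x : G) ∈ D1 ⊔ D2 := by rw [h.sup]; exact (f x).2
      have hn : ∀ a ∈ D1, ∀ c ∈ D2, a * c = c * a := fun a ha c hc =>
        h.comm a (h1D ha) c (h2D hc)
      -- elements of the supremum are products
      have h2 : ∀ g ∈ D1 ⊔ D2, ∃ a ∈ D1, ∃ c ∈ D2, a * c = g := by
        intro g hg
        rw [sup_eq_closure_mul] at hg
        induction hg using closure_induction with
        | mem g hg =>
          obtain ⟨a, ha, c, hc, rfl⟩ := Set.mem_mul.1 hg
          exact ⟨a, ha, c, hc, rfl⟩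
        | one => exact ⟨1, one_mem _, 1, one_mem _, one_mul 1⟩
        | mul g g' _ _ hg hg' =>
          obtain ⟨a, ha, c, hc, rfl⟩ := hg
          obtain ⟨a', ha', c', hc', rfl⟩ := hg'
          refine ⟨a * a', mul_mem ha ha', c * c', mul_mem hc hc', ?_⟩
          calc a * a' * (c * c') = a * (a' * c) * c' := by group
            _ = a * c * (a' * c') := by rw [hn a' ha' c hc]; group
        | inv g _ hg =>
          obtain ⟨a, ha, c, hc, rfl⟩ := hg
          refine ⟨a⁻¹, inv_mem ha, c⁻¹, inv_mem hc, ?_⟩
          rw [mul_inv_rev, hn a⁻¹ (inv_mem ha) c⁻¹ (inv_mem hc)]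
      obtain ⟨a, ha, c, hc, hac⟩ := h2 _ h1
      have hx : x = f.symm ⟨a, h1D ha⟩ * f.symm ⟨c, h2D hc⟩ := by
        apply f.injective
        rw [map_mul, MulEquiv.apply_symm_apply, MulEquiv.apply_symm_apply]
        exact Subtype.ext hac.symm
      rw [hx]
      refine mul_mem (mem_sup_left ?_) (mem_sup_right ?_)
      · rw [hE, MulEquiv.apply_symm_apply]
        exact ha
      · rw [hE, MulEquiv.apply_symm_apply]
        exact hc
    · intro h0
      apply h.ne
      rw [eq_bot_iff]
      intro x hx
      have h1 : f.symm ⟨x, h1D hx⟩ ∈ E D1 := by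
        rw [hE, MulEquiv.apply_symm_apply]
        exact hx
      rw [h0, mem_bot] at h1
      have h2 := congrArg f h1
      rw [MulEquiv.apply_symm_apply, map_one] at h2
      exact congrArg Subtype.val h2
    · intro m d hd hd1 hdm
      have h1 := hfm m d
      rw [hdm] at h1
      have h2 : ((f d : D) : G) ≠ 1 := by
        intro h3
        apply hd1
        apply f.injective
        rw [map_one]
        exact Subtype.ext h3
      have h3 := (h.free1 _ ((hE D1 d).1 hd) h2).2 (t ^ m) (pow_mem ht m) h1.symm
      exact relIndex_dvd hT hCT ht hgen h3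
  exact (hL p k D' τ _ (E D1) (E D2) hTWR Λ A).trans hl

end Vale.P179.H531
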