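import Vale.Agent.P179.H531.Sum

/-!
# Restriction of coefficients in a group algebra and the Brauer homomorphism
-/

namespace Vale.P179.H531

open Finset MonoidAlgebra

open scoped Classical

set_option linter.unusedSectionVars false

section

variable {k : Type*} [Field k] {G : Type*} [Group G]

/-- restriction of the coefficients to the set `S` -/
noncomputable def rs (S : Set G) : MonoidAlgebra k G →ₗ[k] MonoidAlgebra k G where
  toFun a := .ofCoeff (a.coeff.filter (· ∈ S))
  map_add' a b := by
    ext x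
    simp [Finsupp.filter_apply]
  map_smul' c a := by
    ext x
    simp [Finsupp.filter_apply]

theorem coeff_rs (S : Set G) (a : MonoidAlgebra k G) (x : G) :
    (rs S a).coeff x = if x ∈ S then a.coeff x else 0 := by
  change (a.coeff.filter (· ∈ S)) x = _
  rw [Finsupp.filter_apply]

theorem coeff_rs_of_mem {S : Set G} (a : MonoidAlgebra k G) {x : G} (hx : x ∈ S) :
    (rs S a).coeff x = a.coeff x := by rw [coeff_rs, if_pos hx]

theorem coeff_rs_of_notMem {S : Set G} (a : MonoidAlgebra k G) {x : G} (hx : x ∉ S) :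
    (rs S a).coeff x = 0 := by rw [coeff_rs, if_neg hx]

/-- `a` is supported on `S` -/
def Spt (S : Set G) (a : MonoidAlgebra k G) : Prop := ∀ x, x ∉ S → a.coeff x = 0

theorem rs_spt (S : Set G) (a : MonoidAlgebra k G) : Spt S (rs S a) :=
  fun _ hx => coeff_rs_of_notMem a hx

theorem rs_of_spt {S : Set G} {a : MonoidAlgebra k G} (ha : Spt S a) : rs S a = a := by
  ext x
  by_cases hx : x ∈ S
  · exact coeff_rs_of_mem a hx
  · rw [coeff_rs_of_notMem a hx, ha x hx]

theorem rs_rs {S T : Set G} (a : MonoidAlgebra k G) : rs S (rs T a) = rs (S ∩ T) a := by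
  ext x
  rw [coeff_rs, coeff_rs, coeff_rs]
  by_cases h1 : x ∈ S <;> by_cases h2 : x ∈ T <;> simp [h1, h2]

theorem Spt.mono {S T : Set G} (h : S ⊆ T) {a : MonoidAlgebra k G} (ha : Spt S a) : Spt T a :=
  fun x hx => ha x fun h1 => hx (h h1)

theorem spt_single {S : Set G} {g : G} (hg : g ∈ S) (c : k) : Spt S (single g c) := by
  intro x hx
  rw [MonoidAlgebra.coeff_single, Finsupp.single_apply, if_neg]
  rintro rfl
  exact hx hg

theorem Spt.add {S : Set G} {a b : MonoidAlgebra k G} (ha : Spt S a) (hb : Spt S b) :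
    Spt S (a + b) := fun x hx => by
  rw [MonoidAlgebra.coeff_add, Finsupp.add_apply, ha x hx, hb x hx, add_zero]

theorem Spt.smul {S : Set G} {a : MonoidAlgebra k G} (ha : Spt S a) (c : k) :
    Spt S (c • a) := fun x hx => by
  rw [MonoidAlgebra.coeff_smul, Finsupp.smul_apply, ha x hx, smul_zero]

theorem Spt.sum {S : Set G} {ι : Type*} {s : Finset ι} {f : ι → MonoidAlgebra k G}
    (h : ∀ i ∈ s, Spt S (f i)) : Spt S (∑ i ∈ s, f i) := fun x hx => by
  rw [MonoidAlgebra.coeff_sum, Finsupp.finsetSum_apply]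
  exact Finset.sum_eq_zero fun i hi => h i hi x hx

theorem coeff_single_mul (g x : G) (a : MonoidAlgebra k G) :
    (single g 1 * a).coeff x = a.coeff (g⁻¹ * x) := by
  rw [MonoidAlgebra.coeff_single_mul_apply, one_mul]

theorem coeff_mul_single (g x : G) (a : MonoidAlgebra k G) :
    (a * single g 1).coeff x = a.coeff (x * g⁻¹) := by
  rw [MonoidAlgebra.coeff_mul_single_apply, mul_one]

theorem commute_iff {g : G} {a : MonoidAlgebra k G} :
    single g 1 * a = a * single g 1 ↔ ∀ x, a.coeff (g * x * g⁻¹) = a.coeff x := by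
  constructor
  · intro h x
    have h1 := congrArg (fun b : MonoidAlgebra k G => b.coeff (g * x)) h
    simp only [coeff_single_mul, coeff_mul_single] at h1
    rw [← h1]
    congr 1
    group
  · intro h
    ext x
    rw [coeff_single_mul, coeff_mul_single, ← h (g⁻¹ * x)]
    congr 1
    group

theorem spt_mul {H : Subgroup G} {a b : MonoidAlgebra k G} (ha : Spt (H : Set G) a)
    (hb : Spt (H : Set G) b) : Spt (H : Set G) (a * b) := by
  intro x hx
  rw [MonoidAlgebra.coeff_mul_apply_left, Finsupp.sum]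
  refine Finset.sum_eq_zero fun h _ => ?_
  by_cases hh : h ∈ H
  · rw [hb, mul_zero]
    intro h1
    exact hx (by simpa using mul_mem hh h1)
  · rw [ha h hh, zero_mul]

/-- restriction to a subgroup is linear over the group algebra of the subgroup -/
theorem rs_mul_left {H : Subgroup G} {a : MonoidAlgebra k G} (ha : Spt (H : Set G) a)
    (b : MonoidAlgebra k G) : rs (H : Set G) (a * b) = a * rs (H : Set G) b := by
  ext x
  by_cases hx : x ∈ H
  · rw [coeff_rs_of_mem _ (SetLike.mem_coe.2 hx), MonoidAlgebra.coeff_mul_apply_left,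
      MonoidAlgebra.coeff_mul_apply_left, Finsupp.sum, Finsupp.sum]
    refine Finset.sum_congr rfl fun h _ => ?_
    by_cases hh : h ∈ H
    · rw [coeff_rs_of_mem]
      exact mul_mem (inv_mem hh) hx
    · rw [ha h hh, zero_mul, zero_mul]
  · rw [coeff_rs_of_notMem _ hx]
    exact ((spt_mul ha (rs_spt _ b)) x hx).symm

theorem rs_mul_right {H : Subgroup G} {b : MonoidAlgebra k G} (hb : Spt (H : Set G) b)
    (a : MonoidAlgebra k G) : rs (H : Set G) (a * b) = rs (H : Set G) a * b := by
  ext x
  by_cases hx : x ∈ H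
  · rw [coeff_rs_of_mem _ (SetLike.mem_coe.2 hx), MonoidAlgebra.coeff_mul_apply_right,
      MonoidAlgebra.coeff_mul_apply_right, Finsupp.sum, Finsupp.sum]
    refine Finset.sum_congr rfl fun h _ => ?_
    by_cases hh : h ∈ H
    · rw [coeff_rs_of_mem]
      exact mul_mem hx (inv_mem hh)
    · rw [hb h hh, mul_zero, mul_zero]
  · rw [coeff_rs_of_notMem _ hx]
    exact ((spt_mul (rs_spt _ a) hb) x hx).symm

end

section

variable {p : ℕ} [hp : Fact p.Prime] {k : Type*} [Field k] [CharP k p] {G : Type*} [Group G]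
  [Finite G]

include hp in
/-- the Brauer homomorphism is multiplicative -/
theorem br_mul {P : Subgroup G} (hP : IsPGroup p P) {a b : MonoidAlgebra k G}
    (ha : ∀ g ∈ P, single g 1 * a = a * single g 1)
    (hb : ∀ g ∈ P, single g 1 * b = b * single g 1) :
    rs (Subgroup.centralizer (P : Set G) : Set G) (a * b) =
      rs (Subgroup.centralizer (P : Set G) : Set G) a *
      rs (Subgroup.centralizer (P : Set G) : Set G) b := by
  have := Fintype.ofFinite G
  set C : Subgroup G := Subgroup.centralizer (P : Set G) with hC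
  ext x
  by_cases hx : x ∈ C
  · rw [coeff_rs_of_mem _ (SetLike.mem_coe.2 hx), MonoidAlgebra.coeff_mul_apply_left,
      MonoidAlgebra.coeff_mul_apply_left, Finsupp.sum_fintype _ _ (fun _ => zero_mul _),
      Finsupp.sum_fintype _ _ (fun _ => zero_mul _)]
    let act : MulAction P G := MulAction.compHom G ((MulAut.conj (G := G)).comp P.subtype)
    have hact : ∀ (g : P) (y : G), g • y = g * y * (g : G)⁻¹ := fun g y => rfl
    rw [sum_eq_sum_fixed hP (fun h => a.coeff h * b.coeff (h⁻¹ * x))]
    · rw [Finset.sum_filter]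
      refine Finset.sum_congr rfl fun h _ => ?_
      have hiff : (∀ g : P, g • h = h) ↔ h ∈ C := by
        rw [hC, Subgroup.mem_centralizer_iff]
        constructor
        · intro h1 g hg
          have h2 := h1 ⟨g, hg⟩
          rw [hact] at h2
          exact mul_inv_eq_iff_eq_mul.1 h2
        · intro h1 g
          rw [hact]
          exact mul_inv_eq_iff_eq_mul.2 (h1 g g.2)
      by_cases hh : h ∈ C
      · rw [if_pos (hiff.2 hh), coeff_rs_of_mem _ (SetLike.mem_coe.2 hh), coeff_rs_of_mem]
        exact mul_mem (inv_mem hh) hx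
      · rw [if_neg fun h1 => hh (hiff.1 h1), coeff_rs_of_notMem _ hh, zero_mul]
    · intro g h
      rw [hact]
      have h1 := commute_iff.1 (ha g g.2) h
      have h2 := commute_iff.1 (hb g g.2) (h⁻¹ * x)
      have h3 : (g : G) * (h⁻¹ * x) * (g : G)⁻¹ = ((g : G) * h * (g : G)⁻¹)⁻¹ * x := by
        have h4 : (g : G) * x * (g : G)⁻¹ = x := by
          rw [hC, Subgroup.mem_centralizer_iff] at hx
          exact mul_inv_eq_iff_eq_mul.2 (hx g g.2)
        calc (g : G) * (h⁻¹ * x) * (g : G)⁻¹ = ((g : G) * h * (g : G)⁻¹)⁻¹ *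
              ((g : G) * x * (g : G)⁻¹) := by group
          _ = _ := by rw [h4]
      rw [← h3, h1, h2]
  · rw [coeff_rs_of_notMem _ hx]
    exact ((spt_mul (rs_spt _ a) (rs_spt _ b)) x hx).symm

end

end Vale.P179.H531
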