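import Vale.Agent.P179.H531.Nilp

/-!
# The idempotent `f`
-/

namespace Vale.P179.H531

open Finset MonoidAlgebra Subgroup

open scoped Classical IsMulCommutative

set_option linter.unusedSectionVars false

set_option linter.unusedVariables false

section

/-- in a finite monoid some power is idempotent -/
theorem exists_idem_pow {M : Type*} [Monoid M] [Finite M] (y : M) :
    ∃ n : ℕ, 0 < n ∧ y ^ n * y ^ n = y ^ n := by
  obtain ⟨a, b, hab, h⟩ := Finite.exists_ne_map_eq_of_infinite (fun n : ℕ => y ^ n)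
  wlog hlt : a < b generalizing a b with H
  · exact H b a hab.symm h.symm (lt_of_le_of_ne (not_lt.1 hlt) hab.symm)
  obtain ⟨d, rfl⟩ := Nat.exists_eq_add_of_lt hlt
  have h1 : ∀ m, a ≤ m → y ^ (m + (d + 1)) = y ^ m := by
    intro m hm
    obtain ⟨c, rfl⟩ := Nat.exists_eq_add_of_le hm
    have h2 : y ^ a = y ^ (a + d + 1) := h
    calc y ^ (a + c + (d + 1)) = y ^ (a + d + 1) * y ^ c := by rw [← pow_add]; congr 1; ring
      _ = y ^ (a + c) := by rw [← h2, ← pow_add]
  have h3 : ∀ t m, a ≤ m → y ^ (m + (d + 1) * t) = y ^ m := by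
    intro t
    induction t with
    | zero => intro m _; simp
    | succ t ih =>
      intro m hm
      have : m + (d + 1) * (t + 1) = (m + (d + 1) * t) + (d + 1) := by ring
      rw [this, h1 _ (by nlinarith [Nat.zero_le ((d + 1) * t)]), ih m hm]
  refine ⟨(d + 1) * (a + 1), by positivity, ?_⟩
  rw [← pow_add, h3 (a + 1) _ (by nlinarith [Nat.zero_le (d * (a + 1))])]

end

section

variable {p : ℕ} [hp : Fact p.Prime] {k : Type*} [Field k] [CharP k p]
  {G : Type*} [Group G] [Fintype G]

/-- the centraliser of `u`, as the centraliser of the subgroup generated by `u` -/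
def Cu (u : G) : Subgroup G := centralizer ((zpowers u : Subgroup G) : Set G)

theorem mem_Cu {u x : G} : x ∈ Cu u ↔ x * u = u * x := by
  rw [Cu, zpowers_eq_closure, centralizer_closure, mem_centralizer_singleton_iff]

include hp in
/-- the Brauer homomorphism for the element `u` -/
theorem br_mul_u {D : Sylow p G} {u : G} (hu : u ∈ D) {a b : MonoidAlgebra k G}
    (ha : ∀ g ∈ D, single g 1 * a = a * single g 1)
    (hb : ∀ g ∈ D, single g 1 * b = b * single g 1) :
    rs (Cu u : Set G) (a * b) = rs (Cu u : Set G) a * rs (Cu u : Set G) b := by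
  have h1 : zpowers u ≤ (D : Subgroup G) := zpowers_le.2 hu
  exact br_mul (D.2.to_le h1) (fun g hg => ha g (h1 hg)) (fun g hg => hb g (h1 hg))

include hp in
theorem br_pow_u {D : Sylow p G} {u : G} (hu : u ∈ D) {a : MonoidAlgebra k G}
    (ha : ∀ g ∈ D, single g 1 * a = a * single g 1) (n : ℕ) :
    (∀ g ∈ D, single g 1 * a ^ n = a ^ n * single g 1) ∧
    rs (Cu u : Set G) (a ^ n) = rs (Cu u : Set G) a ^ n := by
  have hc : ∀ n : ℕ, ∀ g ∈ D, single g 1 * a ^ n = a ^ n * single g 1 := fun n g hg =>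
    (Commute.pow_right (show Commute (single g 1) a from ha g hg) n)
  refine ⟨hc n, ?_⟩
  induction n with
  | zero =>
    rw [pow_zero, pow_zero, MonoidAlgebra.one_def]
    exact rs_of_spt (spt_single (one_mem _) _)
  | succ n ih => rw [pow_succ, pow_succ, br_mul_u hu (hc n) ha, ih]

include hp in
/-- the Brauer homomorphism preserves the augmentation -/
theorem aug_br_u {D : Sylow p G} {u : G} (hu : u ∈ D) {a : MonoidAlgebra k G}
    (ha : ∀ g ∈ D, single g 1 * a = a * single g 1) :
    aug k G (rs (Cu u : Set G) a) = aug k G a := by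
  have h1 : zpowers u ≤ (D : Subgroup G) := zpowers_le.2 hu
  have hP : IsPGroup p (zpowers u) := D.2.to_le h1
  let act : MulAction (zpowers u) G :=
    MulAction.compHom G ((MulAut.conj (G := G)).comp (zpowers u).subtype)
  have hact : ∀ (g : zpowers u) (y : G), g • y = g * y * (g : G)⁻¹ := fun g y => rfl
  rw [aug_eq, aug_eq, sum_eq_sum_fixed hP (fun x => a.coeff x), Finset.sum_filter]
  · refine Finset.sum_congr rfl fun x _ => ?_
    rw [coeff_rs]
    refine if_congr ?_ rfl rfl
    rw [SetLike.mem_coe, Cu, mem_centralizer_iff]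
    constructor
    · intro h g
      rw [hact]
      exact mul_inv_eq_iff_eq_mul.2 (h g g.2)
    · intro h g hg
      have h2 := h ⟨g, hg⟩
      rw [hact] at h2
      exact mul_inv_eq_iff_eq_mul.1 h2
  · intro g x
    rw [hact]
    exact commute_iff.1 (ha g (h1 g.2)) x

/-- `K` consists of the `p'`-elements of the centraliser of `u` -/
def IsK (p : ℕ) {G : Type*} [Group G] (u : G) (K : Subgroup G) : Prop :=
  ∀ x, x ∈ K ↔ (x * u = u * x ∧ ¬ p ∣ orderOf x)

/-- `O` consists of the `p'`-elements of the centraliser of `D` -/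
def IsO {p : ℕ} {G : Type*} [Group G] (D : Sylow p G) (O : Subgroup G) : Prop :=
  ∀ x, x ∈ O ↔ (x ∈ centralizer (D : Set G) ∧ ¬ p ∣ orderOf x)

variable {D : Sylow p G}

theorem IsO.eq {O O' : Subgroup G} (h : IsO D O) (h' : IsO D O') : O = O' := by
  ext x
  rw [h x, h' x]

theorem IsK.eq {u : G} {K K' : Subgroup G} (h : IsK p u K) (h' : IsK p u K') : K = K' := by
  ext x
  rw [h x, h' x]

theorem IsO.conj {O : Subgroup G} (h : IsO D O) {n : G} (hn : n ∈ normalizer (D : Set G)) (x : G) :
    n * x * n⁻¹ ∈ O ↔ x ∈ O := by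
  have key : ∀ n ∈ normalizer (D : Set G), ∀ x ∈ O, n * x * n⁻¹ ∈ O := by
    intro n hn x hx
    rw [h] at hx ⊢
    refine ⟨?_, ?_⟩
    · rw [mem_centralizer_iff]
      intro d hd
      have h1 : n⁻¹ * d * n ∈ D := by
        have h0 := (mem_normalizer_iff.1 (inv_mem hn) d).1 hd
        rw [inv_inv] at h0
        exact h0
      have h2 := mem_centralizer_iff.1 hx.1 _ h1
      calc d * (n * x * n⁻¹) = n * (n⁻¹ * d * n * x) * n⁻¹ := by group
        _ = n * (x * (n⁻¹ * d * n)) * n⁻¹ := by rw [h2]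
        _ = n * x * n⁻¹ * d := by group
    · have h3 : orderOf (n * x * n⁻¹) = orderOf x :=
        orderOf_injective (MulAut.conj n).toMonoidHom (MulAut.conj n).injective x
      rw [h3]
      exact hx.2
  refine ⟨fun hx => ?_, key n hn x⟩
  have h1 := key n⁻¹ (inv_mem hn) _ hx
  have h2 : n⁻¹ * (n * x * n⁻¹) * n⁻¹⁻¹ = x := by group
  rwa [h2] at h1

theorem IsK.conj {u : G} {K : Subgroup G} (h : IsK p u K) {c : G} (hc : c ∈ Cu u) (x : G) :
    c * x * c⁻¹ ∈ K ↔ x ∈ K := by
  rw [mem_Cu] at hc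
  have key : ∀ c : G, c * u = u * c → ∀ x ∈ K, c * x * c⁻¹ ∈ K := by
    intro c hc x hx
    rw [h] at hx ⊢
    refine ⟨?_, ?_⟩
    · have hc' : c⁻¹ * u = u * c⁻¹ := by
        calc c⁻¹ * u = c⁻¹ * (u * c) * c⁻¹ := by group
          _ = c⁻¹ * (c * u) * c⁻¹ := by rw [hc]
          _ = u * c⁻¹ := by group
      calc c * x * c⁻¹ * u = c * x * (c⁻¹ * u) := by group
        _ = c * (x * u) * c⁻¹ := by rw [hc']; group
        _ = c * (u * x) * c⁻¹ := by rw [hx.1]
        _ = (c * u) * x * c⁻¹ := by group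
        _ = u * (c * x * c⁻¹) := by rw [hc]; group
    · have h3 : orderOf (c * x * c⁻¹) = orderOf x :=
        orderOf_injective (MulAut.conj c).toMonoidHom (MulAut.conj c).injective x
      rw [h3]
      exact hx.2
  refine ⟨fun hx => ?_, key c hc x⟩
  have hc' : c⁻¹ * u = u * c⁻¹ := by
    calc c⁻¹ * u = c⁻¹ * (u * c) * c⁻¹ := by group
      _ = c⁻¹ * (c * u) * c⁻¹ := by rw [hc]
      _ = u * c⁻¹ := by group
  have h1 := key c⁻¹ hc' _ hx
  have h2 : c⁻¹ * (c * x * c⁻¹) * c⁻¹⁻¹ = x := by group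
  rwa [h2] at h1

/-- the order of `K` and the order of `O` are congruent modulo `p` -/
theorem card_K_eq (hD : FreeSyl D) {u : G} (hu : u ∈ D) {K O : Subgroup G} (hK : IsK p u K)
    (hO : IsO D O) : (Nat.card K : k) = Nat.card O := by
  refine CharP.natCast_eq_natCast' k p (card_modEq_of_conj (D := D) (S := (K : Set G))
    (T := (O : Set G)) ?_ ?_)
  · intro d hd x hx
    exact (hK.conj (mem_Cu.2 (hD.ab d hd u hu)) x).2 hx
  · intro x
    rw [SetLike.mem_coe, SetLike.mem_coe, hO, hK]
    exact ⟨fun h => ⟨⟨hD.cent_le hu h.1, h.2⟩, h.1⟩, fun h => ⟨h.2, h.1.2⟩⟩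

/-- the `p'`-elements which centralise a non-trivial element of `D` -/
def XX (D : Sylow p G) : Set G := {x | ¬ p ∣ orderOf x ∧ ∃ u ∈ D, u ≠ 1 ∧ x * u = u * x}

theorem XX_conj {n : G} (hn : n ∈ normalizer (D : Set G)) (x : G) :
    n * x * n⁻¹ ∈ XX D ↔ x ∈ XX D := by
  have key : ∀ n ∈ normalizer (D : Set G), ∀ x ∈ XX D, n * x * n⁻¹ ∈ XX D := by
    rintro n hn x ⟨h1, u, hu, hu1, h2⟩
    refine ⟨?_, n * u * n⁻¹, ?_, ?_, ?_⟩
    · have h3 : orderOf (n * x * n⁻¹) = orderOf x :=
        orderOf_injective (MulAut.conj n).toMonoidHom (MulAut.conj n).injective x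
      rw [h3]
      exact h1
    · exact (mem_normalizer_iff.1 hn u).1 hu
    · intro h
      apply hu1
      have : n⁻¹ * (n * u * n⁻¹) * n = u := by group
      rw [← this, h]
      group
    · calc n * x * n⁻¹ * (n * u * n⁻¹) = n * (x * u) * n⁻¹ := by group
        _ = n * (u * x) * n⁻¹ := by rw [h2]
        _ = _ := by group
  refine ⟨fun hx => ?_, key n hn x⟩
  have h1 := key n⁻¹ (inv_mem hn) _ hx
  have h2 : n⁻¹ * (n * x * n⁻¹) * n⁻¹⁻¹ = x := by group
  rwa [h2] at h1

theorem le_norm : (D : Subgroup G) ≤ normalizer (D : Set G) := Subgroup.le_normalizer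

theorem card_XX_eq (hD : FreeSyl D) {u : G} (hu : u ∈ D) (hu1 : u ≠ 1) {O : Subgroup G}
    (hO : IsO D O) : (Nat.card (XX D) : k) = Nat.card O := by
  refine CharP.natCast_eq_natCast' k p (card_modEq_of_conj (D := D) (S := XX D)
    (T := (O : Set G)) ?_ ?_)
  · intro d hd x hx
    exact (XX_conj (le_norm hd) x).2 hx
  · intro x
    rw [SetLike.mem_coe, hO]
    exact ⟨fun h => ⟨⟨h.2, u, hu, hu1, hD.cent_le hu h.1⟩, h.1⟩, fun h => ⟨h.2, h.1.1⟩⟩

theorem Cu_inter_XX {u : G} (hu : u ∈ D) (hu1 : u ≠ 1) {K : Subgroup G} (hK : IsK p u K) :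
    (Cu u : Set G) ∩ XX D = (K : Set G) := by
  ext x
  rw [Set.mem_inter_iff, SetLike.mem_coe, SetLike.mem_coe, mem_Cu, hK]
  exact ⟨fun h => ⟨h.1, h.2.1⟩, fun h => ⟨h.1, h.2, u, hu, hu1, h.1⟩⟩

/-- the element whose powers are considered -/
noncomputable def x0 (k : Type*) [Field k] (D : Sylow p G) (O : Subgroup G) :
    MonoidAlgebra k G := (Nat.card O : k)⁻¹ • ss k (XX D)

theorem x0_comm {O : Subgroup G} {n : G} (hn : n ∈ normalizer (D : Set G)) :
    single n 1 * x0 k D O = x0 k D O * single n 1 := by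
  rw [x0, mul_smul_comm, smul_mul_assoc, commute_ss (XX_conj hn)]

theorem rs_x0 (hD : FreeSyl D) {u : G} (hu : u ∈ D) (hu1 : u ≠ 1) {K O : Subgroup G}
    (hK : IsK p u K) (hO : IsO D O) : rs (Cu u : Set G) (x0 k D O) = av k K := by
  rw [x0, map_smul, rs_ss, Cu_inter_XX hu hu1 hK, av, card_K_eq hD hu hK hO]

theorem aug_ss (S : Set G) : aug k G (ss k S) = Nat.card S := by
  rw [ss, map_sum, Finset.sum_congr rfl (fun x _ => aug_single x 1), sum_const, nsmul_eq_mul,
    mul_one]
  congr 1
  rw [Nat.card_eq_fintype_card]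
  exact (Fintype.card_of_subtype _ (fun x => by simp)).symm

theorem natCast_ne_zero' {n : ℕ} (h : ¬ p ∣ n) : (n : k) ≠ 0 := by
  rwa [Ne, CharP.cast_eq_zero_iff k p]

theorem IsO.card_ne (hD : FreeSyl D) {u : G} (hu : u ∈ D) (hu1 : u ≠ 1) {O : Subgroup G}
    (hO : IsO D O) : ¬ p ∣ Nat.card O := by
  obtain ⟨O', h1, h2, -⟩ := hD.exists_O hu hu1
  rwa [hO.eq h1]

theorem IsK.card_ne (hD : FreeSyl D) {u : G} (hu : u ∈ D) (hu1 : u ≠ 1) {K : Subgroup G}
    (hK : IsK p u K) : ¬ p ∣ Nat.card K := by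
  obtain ⟨K', h1, h2, -⟩ := hD.exists_compl hu hu1
  rwa [hK.eq h1]

theorem aug_x0 (hD : FreeSyl D) {u : G} (hu : u ∈ D) (hu1 : u ≠ 1) {O : Subgroup G}
    (hO : IsO D O) : aug k G (x0 k D O) = 1 := by
  rw [x0, map_smul, aug_ss, card_XX_eq hD hu hu1 hO, smul_eq_mul,
    inv_mul_cancel₀ (natCast_ne_zero' (hO.card_ne hD hu hu1))]

theorem exists_pow_x0 (O : Subgroup G) : ∃ n : ℕ, 0 < n ∧
    (x0 k D O) ^ n * (x0 k D O) ^ n = (x0 k D O) ^ n := by
  have hfin : Finite (MonoidAlgebra (ZMod p) G) :=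
    Finite.of_equiv _ MonoidAlgebra.coeffEquiv.symm
  obtain ⟨n, hn, h⟩ := exists_idem_pow (x0 (ZMod p) D O)
  refine ⟨n, hn, ?_⟩
  let φ := MonoidAlgebra.mapRingHom G (ZMod.castHom (dvd_refl p) k)
  have h1 : φ (x0 (ZMod p) D O) = x0 k D O := by
    ext x
    rw [MonoidAlgebra.coeff_mapRingHom, x0, x0, MonoidAlgebra.coeff_smul, MonoidAlgebra.coeff_smul,
      Finsupp.smul_apply, Finsupp.smul_apply, coeff_ss, coeff_ss, smul_eq_mul, smul_eq_mul, map_mul,
      map_inv₀, map_natCast]
    split_ifs <;> simp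
  rw [← h1, ← map_pow, ← map_mul, h]

/-- central idempotents of augmentation `1` act as the identity on the principal block of the
centraliser of `u` -/
theorem av_mul_idem (hD : FreeSyl D) {u : G} (hu : u ∈ D) (hu1 : u ≠ 1) {K : Subgroup G}
    (hK : IsK p u K) {β : MonoidAlgebra k G} (hβs : Spt (Cu u : Set G) β) (hββ : β * β = β)
    (hβa : aug k G β = 1) : av k K * β = av k K := by
  have hab : IsMulCommutative (D : Subgroup G) :=
    ⟨⟨fun a b => Subtype.ext (hD.ab a a.2 b b.2)⟩⟩
  obtain ⟨K', hK', hcard, hfac⟩ := hD.exists_compl hu hu1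
  obtain rfl : K = K' := hK.eq hK'
  have hKu : K ≤ Cu u := fun x hx => mem_Cu.2 ((hK x).1 hx).1
  have hcK : (Nat.card K : k) ≠ 0 := natCast_ne_zero' hcard
  have hcomm : β * av k K = av k K * β :=
    commute_of_spt (fun g hg => commute_av (hK.conj hg)) hβs
  set y := av k K - av k K * β with hy
  have hyy : y * y = y := by
    have h1 : av k K * β * (av k K * β) = av k K * β := by
      calc av k K * β * (av k K * β) = av k K * (β * av k K) * β := by simp only [mul_assoc]
        _ = (av k K * av k K) * (β * β) := by rw [hcomm]; simp only [mul_assoc]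
        _ = _ := by rw [av_mul_self hcK, hββ]
    have h2 : av k K * (av k K * β) = av k K * β := by rw [← mul_assoc, av_mul_self hcK]
    have h3 : av k K * β * av k K = av k K * β := by
      rw [mul_assoc, hcomm, h2]
    rw [hy, sub_mul, mul_sub, mul_sub, av_mul_self hcK, h1, h2, h3]
    simp
  have hey : av k K * y = y := by
    rw [hy, mul_sub, av_mul_self hcK, ← mul_assoc, av_mul_self hcK]
  have hys : Spt (Cu u : Set G) y := by
    intro x hx
    rw [hy, MonoidAlgebra.coeff_sub, Finsupp.sub_apply,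
      (av_spt K).mono (fun z hz => hKu hz) x hx,
      spt_mul ((av_spt K).mono (fun z hz => hKu hz)) hβs x hx, sub_zero]
  have hya : aug k G y = 0 := by
    rw [hy, map_sub, map_mul, hβa, mul_one, sub_self]
  -- the factorisation
  have hfac' : ∀ x : G, ∃ d : (D : Subgroup G), x ∈ Cu u →
      av k K * single x 1 = av k K * single (d : G) 1 := by
    intro x
    by_cases hx : x ∈ Cu u
    · obtain ⟨κ, hκ, d, hd, rfl⟩ := hfac x (mem_Cu.1 hx)
      refine ⟨⟨d, hd⟩, fun _ => ?_⟩
      have h1 : (single (κ * d) 1 : MonoidAlgebra k G) = single κ 1 * single d 1 := by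
        rw [MonoidAlgebra.single_mul_single, mul_one]
      rw [h1, ← mul_assoc, av_mul_single hκ]
    · exact ⟨1, fun h => absurd h hx⟩
  choose dd hdd using hfac'
  let b : MonoidAlgebra k (D : Subgroup G) := ∑ x : G, y.coeff x • (single (dd x) 1 - 1)
  have hb : b ∈ augI k (D : Subgroup G) := by
    refine Submodule.sum_mem _ fun x _ => ?_
    have h1 : y.coeff x • (single (dd x) 1 - 1 : MonoidAlgebra k (D : Subgroup G)) =
        algebraMap k _ (y.coeff x) * (single (dd x) 1 - 1) := by
      rw [Algebra.smul_def]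
    rw [h1]
    exact Ideal.mul_mem_left _ _ (Ideal.subset_span ⟨_, rfl⟩)
  have hyb : y = av k K * iotaP k (D : Subgroup G) b := by
    have h1 : ∀ x : G, y.coeff x • (av k K * single x 1) =
        y.coeff x • (av k K * (single (dd x : G) 1 - 1)) + y.coeff x • av k K := by
      intro x
      by_cases hx : x ∈ Cu u
      · rw [hdd x hx, mul_sub, mul_one, ← smul_add, sub_add_cancel]
      · rw [hys x hx, zero_smul, zero_smul, zero_smul, add_zero]
    have h2 : y = ∑ x : G, y.coeff x • (av k K * single x 1) := by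
      conv_lhs => rw [← hey, eq_sum y]
      rw [Finset.mul_sum]
      exact Finset.sum_congr rfl fun x _ => mul_smul_comm _ _ _
    conv_lhs => rw [h2]
    rw [Finset.sum_congr rfl (fun x _ => h1 x), Finset.sum_add_distrib, ← Finset.sum_smul,
      ← aug_eq, hya, zero_smul, add_zero, map_sum, Finset.mul_sum]
    refine Finset.sum_congr rfl fun x _ => ?_
    rw [map_smul, mul_smul_comm, map_sub, map_one, iotaP_single]
  obtain ⟨M, hM⟩ := exists_pow_augI (k := k) (P := (D : Subgroup G)) D.2
  have hbM : b ^ M = 0 := by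
    have h1 := Ideal.pow_mem_pow hb M
    rwa [hM, Ideal.mem_bot] at h1
  have hcD : ∀ m : MonoidAlgebra k (D : Subgroup G),
      iotaP k (D : Subgroup G) m * av k K = av k K * iotaP k (D : Subgroup G) m := by
    intro m
    refine commute_of_spt (H := (D : Subgroup G)) (fun g hg => commute_av
      (hK.conj (mem_Cu.2 (hD.ab g hg u hu)))) ?_
    have : Fintype (D : Subgroup G) := Fintype.ofFinite _
    rw [eq_sum m, map_sum]
    exact Spt.sum fun d _ => by
      rw [map_smul, iotaP_single]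
      exact (spt_single (SetLike.mem_coe.2 d.2) 1).smul _
  have hpow : ∀ m : ℕ, y ^ m * av k K = av k K * iotaP k (D : Subgroup G) (b ^ m) := by
    intro m
    induction m with
    | zero => rw [pow_zero, one_mul, pow_zero, map_one, mul_one]
    | succ m ih =>
      calc y ^ (m + 1) * av k K = y * (y ^ m * av k K) := by rw [pow_succ', mul_assoc]
        _ = av k K * iotaP k (D : Subgroup G) b * (av k K * iotaP k (D : Subgroup G) (b ^ m)) := by
          rw [ih]; rw [← hyb]
        _ = av k K * (iotaP k (D : Subgroup G) b * av k K) * iotaP k (D : Subgroup G) (b ^ m) := by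
          simp only [mul_assoc]
        _ = av k K * av k K * (iotaP k (D : Subgroup G) b * iotaP k (D : Subgroup G) (b ^ m)) := by
          rw [hcD]; simp only [mul_assoc]
        _ = _ := by rw [av_mul_self hcK, ← map_mul, ← pow_succ']
  have hypow : ∀ m : ℕ, y ^ (m + 1) = y := by
    intro m
    induction m with
    | zero => rw [zero_add, pow_one]
    | succ m ih => rw [pow_succ, ih, hyy]
  have hye : y * av k K = y := by
    rw [hy, sub_mul, av_mul_self hcK, mul_assoc, hcomm, ← mul_assoc, av_mul_self hcK]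
  have hy0 : y = 0 := by
    have h1 := hpow (M + 1)
    rw [hypow M, hye, pow_succ, hbM, zero_mul, map_zero, mul_zero] at h1
    exact h1
  exact (sub_eq_zero.1 hy0).symm

/-- **The idempotent `f`**. -/
theorem exists_f (hD : FreeSyl D) (hD1 : ∃ u ∈ D, u ≠ 1) {O : Subgroup G} (hO : IsO D O)
    {b0 : MonoidAlgebra k G} (hb0c : ∀ g, single g 1 * b0 = b0 * single g 1)
    (hb0 : b0 * b0 = b0) (hb0a : aug k G b0 = 1) :
    ∃ f : MonoidAlgebra k G, f * f = f ∧ b0 * f = f ∧ aug k G f = 1 ∧
      (∀ n ∈ normalizer (D : Set G), single n 1 * f = f * single n 1) ∧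
      (∀ o ∈ O, single o 1 * f = f) ∧
      ∀ u ∈ D, u ≠ 1 → ∀ K, IsK p u K → rs (Cu u : Set G) f = av k K := by
  obtain ⟨u0, hu0, hu01⟩ := hD1
  have hcO : (Nat.card O : k) ≠ 0 := natCast_ne_zero' (hO.card_ne hD hu0 hu01)
  obtain ⟨n, hn, hidem⟩ := exists_pow_x0 (k := k) (D := D) O
  set z := x0 k D O ^ n with hz
  have hOD : ∀ o ∈ O, o ∈ normalizer (D : Set G) := fun o ho =>
    centralizer_le_normalizer _ ((hO o).1 ho).1
  have hzc : ∀ m ∈ normalizer (D : Set G), single m 1 * z = z * single m 1 := fun m hm =>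
    (Commute.pow_right (show Commute (single m 1) (x0 k D O) from x0_comm hm) n)
  have hec : ∀ m ∈ normalizer (D : Set G), single m 1 * av k O = av k O * single m 1 :=
    fun m hm => commute_av (hO.conj hm)
  have hze : av k O * z = z * av k O := by
    refine commute_of_spt (H := O) (fun g hg => hzc g (hOD g hg)) (av_spt O)
  have hbz : ∀ a : MonoidAlgebra k G, a * b0 = b0 * a := fun a =>
    commute_of_spt (H := ⊤) (fun g _ => hb0c g) (fun x hx => absurd (mem_top x) hx)
  refine ⟨z * b0 * av k O, ?_, ?_, ?_, ?_, ?_, ?_⟩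
  · calc z * b0 * av k O * (z * b0 * av k O) = z * (b0 * (av k O * z)) * b0 * av k O := by
          simp only [mul_assoc]
      _ = z * ((z * av k O) * b0) * b0 * av k O := by rw [hze, ← hbz (z * av k O)]
      _ = (z * z) * (av k O * (b0 * b0)) * av k O := by simp only [mul_assoc]
      _ = z * (av k O * b0) * av k O := by rw [hidem, hb0]
      _ = z * b0 * (av k O * av k O) := by rw [hbz]; simp only [mul_assoc]
      _ = _ := by rw [av_mul_self hcO]
  · calc b0 * (z * b0 * av k O) = (b0 * z) * b0 * av k O := by simp only [mul_assoc]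
      _ = z * (b0 * b0) * av k O := by rw [← hbz]; simp only [mul_assoc]
      _ = _ := by rw [hb0]
  · rw [map_mul, map_mul, hb0a, hz, map_pow, aug_x0 hD hu0 hu01 hO, one_pow, av, map_smul, aug_ss,
      smul_eq_mul, one_mul, one_mul]
    exact inv_mul_cancel₀ hcO
  · intro m hm
    calc single m 1 * (z * b0 * av k O) = (single m 1 * z) * b0 * av k O := by
          simp only [mul_assoc]
      _ = z * (single m 1 * b0) * av k O := by rw [hzc m hm]; simp only [mul_assoc]
      _ = z * b0 * (single m 1 * av k O) := by rw [hb0c]; simp only [mul_assoc]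
      _ = _ := by rw [hec m hm]; simp only [mul_assoc]
  · intro o ho
    calc single o 1 * (z * b0 * av k O) = (single o 1 * z) * b0 * av k O := by
          simp only [mul_assoc]
      _ = z * (single o 1 * b0) * av k O := by rw [hzc o (hOD o ho)]; simp only [mul_assoc]
      _ = z * b0 * (single o 1 * av k O) := by rw [hb0c]; simp only [mul_assoc]
      _ = _ := by rw [single_mul_av ho]
  · intro u hu hu1 K hK
    have hDN : ∀ g ∈ D, g ∈ normalizer (D : Set G) := fun g hg => le_norm hg
    have hKcard := hK.card_ne hD hu hu1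
    have hOK : O ≤ K := fun x hx => (hK x).2 ⟨hD.cent_le hu ((hO x).1 hx).1, ((hO x).1 hx).2⟩
    have hOC : O ≤ Cu u := fun x hx => mem_Cu.2 (hD.cent_le hu ((hO x).1 hx).1)
    rw [br_mul_u hu (fun g hg => by
        rw [← mul_assoc, hzc g (hDN g hg), mul_assoc, hb0c, ← mul_assoc])
      (fun g hg => hec g (hDN g hg)), br_mul_u hu (fun g hg => hzc g (hDN g hg))
      (fun g _ => hb0c g), rs_of_spt ((av_spt O).mono (fun x hx => hOC hx)), hz,
      (br_pow_u hu (fun g hg => x0_comm (hDN g hg)) n).2, rs_x0 hD hu hu1 hK hO]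
    have h1 : av k K ^ n = av k K := by
      obtain ⟨m, rfl⟩ : ∃ m, n = m + 1 := ⟨n - 1, by omega⟩
      clear hn hidem hz hzc hze
      induction m with
      | zero => rw [zero_add, pow_one]
      | succ m ih => rw [pow_succ, ih, av_mul_self (natCast_ne_zero' hKcard)]
    have h2 : av k K * rs (Cu u : Set G) b0 = av k K := by
      refine av_mul_idem hD hu hu1 hK (rs_spt _ _) ?_ ?_
      · rw [← br_mul_u hu (fun g _ => hb0c g) (fun g _ => hb0c g), hb0]
      · rw [aug_br_u hu (fun g _ => hb0c g), hb0a]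
    rw [h1, h2, av_mul_of_right hOK hcO]

end

end Vale.P179.H531
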