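import Vale.Agent.P179.H531.Av

/-!
# Nilpotent elements of the group algebra
-/

namespace Vale.P179.H531

open Finset MonoidAlgebra Subgroup

open scoped Classical IsMulCommutative

set_option linter.unusedSectionVars false

section

variable {p : ℕ} [hp : Fact p.Prime] {k : Type*} [Field k] [CharP k p]

/-- the ideal generated by the elements `d - 1` -/
noncomputable def augI (k : Type*) [Field k] (P : Type*) [CommGroup P] :
    Ideal (MonoidAlgebra k P) :=
  Ideal.span (Set.range fun d : P => (single d 1 - 1 : MonoidAlgebra k P))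

include hp in
/-- the ideal generated by the elements `d - 1` in the group algebra of a finite commutative
`p`-group is nilpotent -/
theorem exists_pow_augI {P : Type*} [CommGroup P] [Finite P] (hP : IsPGroup p P) :
    ∃ M : ℕ, augI k P ^ M = ⊥ := by
  have h0 : Module.Finite k (MonoidAlgebra k P) := inferInstance
  have hN : IsNoetherianRing (MonoidAlgebra k P) := IsNoetherianRing.of_finite k _
  have hch : CharP (MonoidAlgebra k P) p :=
    charP_of_injective_algebraMap (algebraMap k (MonoidAlgebra k P)).injective p
  obtain ⟨M, hM⟩ := IsNoetherianRing.isNilpotent_nilradical (MonoidAlgebra k P)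
  refine ⟨M, ?_⟩
  have h1 : augI k P ≤ nilradical (MonoidAlgebra k P) := by
    rw [augI, Ideal.span_le]
    rintro _ ⟨d, rfl⟩
    obtain ⟨a, ha⟩ := hP d
    refine mem_nilradical.2 ⟨p ^ a, ?_⟩
    change (single d 1 - 1 : MonoidAlgebra k P) ^ p ^ a = 0
    rw [sub_pow_char_pow, MonoidAlgebra.single_pow, ha, one_pow, one_pow, MonoidAlgebra.one_def,
      sub_self]
  rw [eq_bot_iff, ← Ideal.zero_eq_bot, ← hM]
  exact Ideal.pow_right_mono h1 M

end

section

variable {p : ℕ} [hp : Fact p.Prime] {k : Type*} [Field k] [CharP k p]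
  {G : Type*} [Group G] [Fintype G] {P : Subgroup G} [IsMulCommutative P]

/-- the embedding of the group algebra of a subgroup -/
noncomputable def iotaP (k : Type*) [Field k] {G : Type*} [Group G] (P : Subgroup G) :
    MonoidAlgebra k P →ₐ[k] MonoidAlgebra k G := MonoidAlgebra.mapDomainAlgHom k k P.subtype

theorem iotaP_single (d : P) (c : k) : iotaP k P (single d c) = single (d : G) c := by
  rw [iotaP, MonoidAlgebra.mapDomainAlgHom_apply, MonoidAlgebra.mapDomain_single]
  rfl

omit [Fintype G] in
theorem eq_sum [Fintype G] (a : MonoidAlgebra k G) : a = ∑ x : G, a.coeff x • single x 1 := by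
  ext y
  rw [MonoidAlgebra.coeff_sum, Finsupp.finsetSum_apply, Finset.sum_eq_single y]
  · simp
  · intro z _ hz
    rw [MonoidAlgebra.coeff_smul, Finsupp.smul_apply, MonoidAlgebra.coeff_single,
      Finsupp.single_apply, if_neg hz, smul_zero]
  · intro h
    exact absurd (mem_univ _) h

/-- the augmentation -/
noncomputable def aug (k : Type*) [Field k] (G : Type*) [Group G] : MonoidAlgebra k G →ₐ[k] k :=
  MonoidAlgebra.lift k k G (1 : G →* k)

omit [Fintype G] in
theorem aug_single (g : G) (c : k) : aug k G (single g c) = c := by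
  rw [aug, MonoidAlgebra.lift_single]
  simp

theorem aug_eq (a : MonoidAlgebra k G) : aug k G a = ∑ x : G, a.coeff x := by
  conv_lhs => rw [eq_sum a]
  rw [map_sum]
  refine Finset.sum_congr rfl fun x _ => ?_
  rw [map_smul, aug_single, smul_eq_mul, mul_one]

/-- the span of the elements `n b`, `n ∈ N`, `b ∈ I ^ m` -/
noncomputable def Sm (k : Type*) [Field k] {G : Type*} [Group G] (N P : Subgroup G)
    [IsMulCommutative P] (m : ℕ) : Submodule k (MonoidAlgebra k G) :=
  Submodule.span k {y | ∃ n ∈ N, ∃ b ∈ augI k P ^ m, y = single n 1 * iotaP k P b}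

theorem Sm_step {N : Subgroup G} (hN : N ≤ normalizer (P : Set G)) (m : ℕ)
    {j y : MonoidAlgebra k G}
    (hj : j ∈ Submodule.span k {y : MonoidAlgebra k G |
      ∃ n ∈ N, ∃ d ∈ P, y = single n 1 * (single d 1 - 1)})
    (hy : y ∈ Sm k N P m) : j * y ∈ Sm k N P (m + 1) := by
  rw [Sm] at hy
  induction hj using Submodule.span_induction with
  | mem a ha =>
    obtain ⟨n, hn, d, hd, rfl⟩ := ha
    induction hy using Submodule.span_induction with
    | mem y hy =>
      obtain ⟨n', hn', b, hb, rfl⟩ := hy
      refine Submodule.subset_span ⟨n * n', mul_mem hn hn', ?_⟩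
      have hd' : n'⁻¹ * d * n' ∈ P := by
        have := (mem_normalizer_iff.1 (inv_mem (hN hn')) d).1 hd
        simpa using this
      refine ⟨(single ⟨n'⁻¹ * d * n', hd'⟩ 1 - 1) * b, ?_, ?_⟩
      · rw [pow_succ']
        exact Ideal.mul_mem_mul (Ideal.subset_span ⟨_, rfl⟩) hb
      · rw [map_mul, map_sub, map_one, iotaP_single]
        have h1 : (single d 1 - 1) * single n' 1 =
            single n' 1 * (single (n'⁻¹ * d * n') 1 - 1 : MonoidAlgebra k G) := by
          rw [sub_mul, mul_sub, one_mul, mul_one, MonoidAlgebra.single_mul_single,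
            MonoidAlgebra.single_mul_single]
          congr 2
          group
        calc single n 1 * (single d 1 - 1) * (single n' 1 * iotaP k P b)
            = single n 1 * ((single d 1 - 1) * single n' 1) * iotaP k P b := by
              simp only [mul_assoc]
          _ = single n 1 * (single n' 1 * (single (n'⁻¹ * d * n') 1 - 1)) * iotaP k P b := by
              rw [h1]
          _ = single n 1 * single n' 1 * ((single (n'⁻¹ * d * n') 1 - 1) * iotaP k P b) := by
              simp only [mul_assoc]
          _ = _ := by rw [MonoidAlgebra.single_mul_single, mul_one]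
    | zero => rw [mul_zero]; exact zero_mem _
    | add y z _ _ hy hz => rw [mul_add]; exact add_mem hy hz
    | smul c y _ hy => rw [mul_smul_comm]; exact Submodule.smul_mem _ _ hy
  | zero => rw [zero_mul]; exact zero_mem _
  | add a b _ _ ha hb => rw [add_mul]; exact add_mem ha hb
  | smul c a _ ha => rw [smul_mul_assoc]; exact Submodule.smul_mem _ _ ha

/-- an element supported on `N` whose sums over the cosets of `P` vanish -/
theorem mem_span_of_coset {N : Subgroup G} (hPN : P ≤ N) {j : MonoidAlgebra k G}
    (hj : Spt (N : Set G) j) (h0 : ∀ x ∈ N, ∑ d : P, j.coeff (x * d) = 0) :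
    j ∈ Submodule.span k {y : MonoidAlgebra k G |
      ∃ n ∈ N, ∃ d ∈ P, y = single n 1 * (single d 1 - 1)} := by
  let r : G → G := fun x => Quotient.out (QuotientGroup.mk (s := P) x)
  have hr : ∀ x, (r x)⁻¹ * x ∈ P := fun x => by
    rw [← QuotientGroup.leftRel_apply]
    exact Quotient.exact (Quotient.out_eq _)
  have hrN : ∀ x ∈ N, r x ∈ N := fun x hx => by
    have h1 := hPN (hr x)
    have h2 := mul_mem hx (inv_mem h1)
    have h3 : x * ((r x)⁻¹ * x)⁻¹ = r x := by group
    rwa [h3] at h2
  have h1 : ∑ x : G, j.coeff x • (single (r x) 1 : MonoidAlgebra k G) = 0 := by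
    rw [← Finset.sum_fiberwise (s := univ) (g := fun x : G => (QuotientGroup.mk (s := P) x))]
    refine Finset.sum_eq_zero fun q _ => ?_
    obtain ⟨x, rfl⟩ := QuotientGroup.mk_surjective q
    by_cases hx : x ∈ N
    · have h2 : ∀ y ∈ (univ.filter fun y : G => (QuotientGroup.mk (s := P) y) =
          QuotientGroup.mk (s := P) x), j.coeff y • (single (r y) 1 : MonoidAlgebra k G) =
          j.coeff y • single (r x) 1 := by
        intro y hy
        have h3 : r y = r x := by
          change Quotient.out (QuotientGroup.mk (s := P) y) = _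
          rw [(mem_filter.1 hy).2]
        rw [h3]
      rw [Finset.sum_congr rfl h2, ← Finset.sum_smul]
      have h4 : ∑ y with (QuotientGroup.mk (s := P) y) = QuotientGroup.mk (s := P) x,
          j.coeff y = ∑ d : P, j.coeff (x * d) := by
        refine (Finset.sum_bij (fun (d : P) _ => x * (d : G)) ?_ ?_ ?_ ?_).symm
        · intro d _
          rw [mem_filter]
          refine ⟨mem_univ _, ?_⟩
          rw [QuotientGroup.eq]
          have : (x * (d : G))⁻¹ * x = (d : G)⁻¹ := by group
          rw [this]
          exact inv_mem d.2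
        · intro d _ d' _ h
          exact Subtype.ext (mul_left_cancel h)
        · intro y hy
          have h5 := (mem_filter.1 hy).2
          rw [QuotientGroup.eq] at h5
          refine ⟨⟨x⁻¹ * y, ?_⟩, mem_univ _, ?_⟩
          · have := inv_mem h5
            simpa [mul_inv_rev] using this
          · change x * (x⁻¹ * y) = y
            group
        · intro d _
          rfl
      rw [h4, h0 x hx, zero_smul]
    · refine Finset.sum_eq_zero fun y hy => ?_
      have h5 := (mem_filter.1 hy).2
      rw [QuotientGroup.eq] at h5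
      rw [hj y, zero_smul]
      intro hy'
      apply hx
      have h6 := mul_mem hy' (hPN h5)
      rwa [mul_inv_cancel_left] at h6
  have h2 : j = ∑ x : G, j.coeff x • (single (r x) 1 * (single ((r x)⁻¹ * x) 1 - 1)) := by
    calc j = ∑ x : G, j.coeff x • single x 1 := eq_sum j
      _ = ∑ x : G, j.coeff x • single x 1 - ∑ x : G, j.coeff x • single (r x) 1 := by
        rw [h1, sub_zero]
      _ = ∑ x : G, (j.coeff x • single x 1 - j.coeff x • single (r x) 1) := by
        rw [Finset.sum_sub_distrib]
      _ = _ := by
        refine Finset.sum_congr rfl fun x _ => ?_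
        rw [← smul_sub, mul_sub, mul_one, MonoidAlgebra.single_mul_single, mul_one]
        congr 3
        group
  rw [h2]
  refine Submodule.sum_mem _ fun x _ => ?_
  by_cases hx : x ∈ N
  · exact Submodule.smul_mem _ _ (Submodule.subset_span ⟨r x, hrN x hx, _, hr x, rfl⟩)
  · rw [hj x hx, zero_smul]
    exact zero_mem _

include hp in
/-- an element supported on `N` whose sums over the cosets of the normal `p`-subgroup `P` vanish
is nilpotent -/
theorem isNilpotent_of_coset {N : Subgroup G} (hP : IsPGroup p P) (hPN : P ≤ N)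
    (hN : N ≤ normalizer (P : Set G)) {j : MonoidAlgebra k G}
    (hj : Spt (N : Set G) j) (h0 : ∀ x ∈ N, ∑ d : P, j.coeff (x * d) = 0) : IsNilpotent j := by
  have h1 := mem_span_of_coset hPN hj h0
  obtain ⟨M, hM⟩ := exists_pow_augI (k := k) hP
  have h2 : ∀ m : ℕ, j ^ m * 1 ∈ Sm k N P m := by
    intro m
    induction m with
    | zero =>
      refine Submodule.subset_span ⟨1, one_mem _, 1, ?_, ?_⟩
      · rw [pow_zero, Ideal.one_eq_top]
        exact Submodule.mem_top
      · rw [map_one, pow_zero, MonoidAlgebra.one_def]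
    | succ m ih =>
      rw [pow_succ', mul_assoc]
      exact Sm_step hN m h1 ih
  refine ⟨M, ?_⟩
  have h3 := h2 M
  rw [mul_one, Sm, hM] at h3
  have h4 : {y : MonoidAlgebra k G | ∃ n ∈ N, ∃ b ∈ (⊥ : Ideal (MonoidAlgebra k P)),
      y = single n 1 * iotaP k P b} ⊆ {0} := by
    rintro y ⟨n, _, b, hb, rfl⟩
    rw [(Submodule.mem_bot _).1 hb, map_zero, mul_zero]
    rfl
  have h5 := Submodule.span_mono h4 h3
  rwa [Submodule.span_zero_singleton, Submodule.mem_bot] at h5

end

end Vale.P179.H531
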