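import Vale.Agent.P179.H531.Idem

/-!
# The retraction onto the group algebra of the normaliser and the vanishing of its matrix entries
-/

namespace Vale.P179.H531

open Finset MonoidAlgebra Subgroup

open scoped Classical IsMulCommutative

set_option linter.unusedSectionVars false

set_option linter.unusedVariables false

section

variable {p : ℕ} [hp : Fact p.Prime] {k : Type*} [Field k] [CharP k p]
  {G : Type*} [Group G] [Fintype G] {D : Sylow p G}

/-- the values of `f` on the centraliser of `D` -/
theorem coeff_f_cent (hD : FreeSyl D) {u : G} (hu : u ∈ D) (hu1 : u ≠ 1) {O : Subgroup G}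
    (hO : IsO D O) {f : MonoidAlgebra k G}
    (hf : ∀ u ∈ D, u ≠ 1 → ∀ K, IsK p u K → rs (Cu u : Set G) f = av k K) {x : G}
    (hx : x ∈ centralizer (D : Set G)) : f.coeff x = (av k O).coeff x := by
  obtain ⟨K, hK, hcard, -⟩ := hD.exists_compl hu hu1
  have hK : IsK p u K := hK
  have h1 : (rs (Cu u : Set G) f).coeff x = (av k K).coeff x := by rw [hf u hu hu1 K hK]
  have hxu : x ∈ Cu u := mem_Cu.2 (hD.cent_le hu hx)
  rw [coeff_rs_of_mem _ (SetLike.mem_coe.2 hxu), coeff_av] at h1
  rw [h1, coeff_av, card_K_eq hD hu hK hO]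
  refine if_congr ?_ rfl rfl
  rw [hK, hO]
  exact ⟨fun h => ⟨hx, h.2⟩, fun h => ⟨mem_Cu.1 hxu, h.2⟩⟩

/-- the sums of the coefficients over a coset `x D` which does not meet the centraliser -/
theorem sum_coset_eq_zero (hD : FreeSyl D) {f : MonoidAlgebra k G}
    (hfD : ∀ g ∈ D, single g 1 * f = f * single g 1) {x : G} (hxN : x ∈ normalizer (D : Set G))
    (hx : x ∉ centralizer (D : Set G)) : ∑ d : (D : Subgroup G), f.coeff (x * d) = 0 := by
  have hconj : ∀ d ∈ D, x⁻¹ * d * x ∈ D := fun d hd => by
    have h0 := (mem_normalizer_iff.1 (inv_mem hxN) d).1 hd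
    rwa [inv_inv] at h0
  let α := {y : G // x⁻¹ * y ∈ D}
  let act : MulAction (D : Subgroup G) α :=
    { smul := fun d y => ⟨d * y * (d : G)⁻¹, by
        have h1 : x⁻¹ * (d * y * (d : G)⁻¹) = (x⁻¹ * d * x) * (x⁻¹ * y) * (d : G)⁻¹ := by group
        rw [h1]
        exact mul_mem (mul_mem (hconj d d.2) y.2) (inv_mem d.2)⟩
      one_smul := fun y => Subtype.ext (by
        change ((1 : (D : Subgroup G)) : G) * y * ((1 : (D : Subgroup G)) : G)⁻¹ = y
        simp)
      mul_smul := fun d d' y => Subtype.ext (by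
        change ((d * d' : (D : Subgroup G)) : G) * y * ((d * d' : (D : Subgroup G)) : G)⁻¹ =
          d * (d' * y * (d' : G)⁻¹) * (d : G)⁻¹
        rw [Subgroup.coe_mul]
        group) }
  have hact : ∀ (d : (D : Subgroup G)) (y : α), ((d • y : α) : G) = d * y * (d : G)⁻¹ :=
    fun d y => rfl
  have h1 : ∑ d : (D : Subgroup G), f.coeff (x * d) = ∑ y : α, f.coeff (y : G) := by
    let e : (D : Subgroup G) ≃ α :=
      { toFun := fun d => (⟨x * d, by rw [inv_mul_cancel_left]; exact d.2⟩ : α)
        invFun := fun y => ⟨x⁻¹ * y, y.2⟩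
        left_inv := fun d => Subtype.ext (inv_mul_cancel_left x (d : G))
        right_inv := fun y => Subtype.ext (mul_inv_cancel_left x (y : G)) }
    exact Fintype.sum_equiv e _ _ (fun d => rfl)
  rw [h1, sum_eq_sum_fixed D.2 (fun y : α => f.coeff (y : G))]
  · refine Finset.sum_eq_zero fun y hy => ?_
    exfalso
    have h2 := (mem_filter.1 hy).2
    apply hx
    have hy1 : (y : G) ∈ centralizer (D : Set G) := by
      rw [mem_centralizer_iff]
      intro d hd
      have h3 := congrArg Subtype.val (h2 ⟨d, hd⟩)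
      rw [hact] at h3
      exact mul_inv_eq_iff_eq_mul.1 h3
    have h4 := hD.le_cent y.2
    have h5 : (y : G) * (x⁻¹ * y)⁻¹ = x := by group
    rw [← h5]
    exact mul_mem hy1 (inv_mem h4)
  · intro d y
    rw [hact]
    exact commute_iff.1 (hfD d d.2) y

/-- **The unit** `c`: the inverse of the restriction of `f` to the normaliser. -/
theorem exists_c (hD : FreeSyl D) {u : G} (hu : u ∈ D) (hu1 : u ≠ 1) {O : Subgroup G}
    (hO : IsO D O) {f : MonoidAlgebra k G}
    (hfN : ∀ n ∈ normalizer (D : Set G), single n 1 * f = f * single n 1)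
    (hfO : ∀ o ∈ O, single o 1 * f = f)
    (hf : ∀ u ∈ D, u ≠ 1 → ∀ K, IsK p u K → rs (Cu u : Set G) f = av k K) :
    ∃ c : MonoidAlgebra k G, (∀ n ∈ normalizer (D : Set G), single n 1 * c = c * single n 1) ∧
      Spt (normalizer (D : Set G) : Set G) c ∧ (∀ o ∈ O, single o 1 * c = c) ∧
      c * rs (normalizer (D : Set G) : Set G) f = av k O := by
  set N : Subgroup G := normalizer (D : Set G) with hN
  have hab : IsMulCommutative (D : Subgroup G) :=
    ⟨⟨fun a b => Subtype.ext (hD.ab a a.2 b b.2)⟩⟩
  have hcO : (Nat.card O : k) ≠ 0 := natCast_ne_zero' (hO.card_ne hD hu hu1)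
  have hON : O ≤ N := fun x hx => centralizer_le_normalizer _ ((hO x).1 hx).1
  have heN : ∀ n ∈ N, single n 1 * av k O = av k O * single n 1 := fun n hn =>
    commute_av (hO.conj hn)
  have hrN : ∀ n ∈ N, single n 1 * rs (N : Set G) f = rs (N : Set G) f * single n 1 := by
    intro n hn
    rw [← rs_mul_left (spt_single (SetLike.mem_coe.2 hn) 1), hfN n hn,
      rs_mul_right (spt_single (SetLike.mem_coe.2 hn) 1)]
  set j := rs (N : Set G) f - av k O with hj
  have hjs : Spt (N : Set G) j := fun x hx => by
    rw [hj, MonoidAlgebra.coeff_sub, Finsupp.sub_apply, coeff_rs_of_notMem _ hx,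
      (av_spt O).mono (fun z hz => hON hz) x hx, sub_zero]
  have hjN : ∀ n ∈ N, single n 1 * j = j * single n 1 := fun n hn => by
    rw [hj, mul_sub, sub_mul, hrN n hn, heN n hn]
  have hjnil : IsNilpotent j := by
    refine isNilpotent_of_coset (p := p) (P := (D : Subgroup G)) (N := N) D.2 le_norm le_rfl hjs ?_
    intro x hx
    have hDN : ∀ d : (D : Subgroup G), x * (d : G) ∈ N := fun d => mul_mem hx (le_norm d.2)
    by_cases hxc : x ∈ centralizer (D : Set G)
    · refine Finset.sum_eq_zero fun d _ => ?_
      rw [hj, MonoidAlgebra.coeff_sub, Finsupp.sub_apply,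
        coeff_rs_of_mem _ (SetLike.mem_coe.2 (hDN d)),
        coeff_f_cent hD hu hu1 hO hf (mul_mem hxc (hD.le_cent d.2)), sub_self]
    · have h1 : ∀ d : (D : Subgroup G), j.coeff (x * d) = f.coeff (x * d) := by
        intro d
        rw [hj, MonoidAlgebra.coeff_sub, Finsupp.sub_apply,
          coeff_rs_of_mem _ (SetLike.mem_coe.2 (hDN d)), av_spt O, sub_zero]
        intro h
        apply hxc
        have h2 := mul_mem ((hO _).1 h).1 (inv_mem (hD.le_cent d.2))
        rwa [mul_inv_cancel_right] at h2
      rw [Finset.sum_congr rfl (fun d _ => h1 d)]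
      exact sum_coset_eq_zero hD (fun g hg => hfN g (le_norm hg)) hx hxc
  obtain ⟨w, hw⟩ := hjnil.isUnit_one_add
  -- the inverse
  set v : MonoidAlgebra k G := ((w⁻¹ : (MonoidAlgebra k G)ˣ) : MonoidAlgebra k G) with hv
  have hv1 : v * (1 + j) = 1 := by rw [← hw, hv, Units.inv_mul]
  have hv2 : (1 + j) * v = 1 := by rw [← hw, hv, Units.mul_inv]
  have hvN : ∀ n ∈ N, single n 1 * v = v * single n 1 := by
    intro n hn
    have h1 : (1 + j) * single n 1 = single n 1 * (1 + j) := by
      rw [add_mul, mul_add, one_mul, mul_one, hjN n hn]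
    calc single n 1 * v = v * (1 + j) * (single n 1 * v) := by rw [hv1, one_mul]
      _ = v * ((1 + j) * single n 1) * v := by simp only [mul_assoc]
      _ = v * single n 1 * ((1 + j) * v) := by rw [h1]; simp only [mul_assoc]
      _ = _ := by rw [hv2, mul_one]
  have h1s : Spt (N : Set G) (1 + j) := by
    refine Spt.add ?_ hjs
    rw [MonoidAlgebra.one_def]
    exact spt_single (SetLike.mem_coe.2 (one_mem _)) 1
  have hvs : Spt (N : Set G) v := by
    have h1 : rs (N : Set G) v * (1 + j) = 1 := by
      rw [← rs_mul_right h1s, hv1]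
      refine rs_of_spt ?_
      rw [MonoidAlgebra.one_def]
      exact spt_single (SetLike.mem_coe.2 (one_mem _)) 1
    have h2 : rs (N : Set G) v = v := by
      calc rs (N : Set G) v = rs (N : Set G) v * ((1 + j) * v) := by rw [hv2, mul_one]
        _ = v := by rw [← mul_assoc, h1, one_mul]
    rw [← h2]
    exact rs_spt _ _
  have hve : v * av k O = av k O * v :=
    (commute_of_spt (H := O) (fun g hg => hvN g (hON hg)) (av_spt O)).symm
  have hje : j * av k O = av k O * j :=
    (commute_of_spt (H := O) (fun g hg => hjN g (hON hg)) (av_spt O)).symm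
  have hef : av k O * f = f := by
    have h1 : ∀ x ∈ (univ.filter fun x : G => x ∈ (O : Set G)), single x 1 * f = f :=
      fun x hx => hfO x (mem_filter.1 hx).2
    rw [av, smul_mul_assoc, ss, Finset.sum_mul, Finset.sum_congr rfl h1, sum_const,
      card_filter_mem, ← Nat.cast_smul_eq_nsmul k, smul_smul, inv_mul_cancel₀ hcO, one_smul]
  have hej : av k O * j = j := by
    rw [hj, mul_sub, av_mul_self hcO, ← rs_mul_left ((av_spt O).mono (fun z hz => hON hz)), hef]
  refine ⟨v * av k O, ?_, ?_, ?_, ?_⟩
  · intro n hn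
    rw [← mul_assoc, hvN n hn, mul_assoc, heN n hn, mul_assoc]
  · exact spt_mul hvs ((av_spt O).mono (fun z hz => hON hz))
  · intro o ho
    rw [hve, ← mul_assoc, single_mul_av ho]
  · have h1 : rs (N : Set G) f = j + av k O := by rw [hj, sub_add_cancel]
    calc v * av k O * rs (N : Set G) f = v * (av k O * j + av k O * av k O) := by
          rw [h1, mul_assoc, mul_add]
      _ = v * (j * av k O + av k O) := by rw [hje, av_mul_self hcO]
      _ = v * (1 + j) * av k O := by rw [mul_assoc, add_mul, one_mul, add_comm]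
      _ = _ := by rw [hv1, one_mul]

/-- **The vanishing of the matrix entries at the pairs with a non-trivial stabiliser.** -/
theorem phi_vanish (hD : FreeSyl D) {O : Subgroup G} (hO : IsO D O) {f c : MonoidAlgebra k G}
    (hfN : ∀ n ∈ normalizer (D : Set G), single n 1 * f = f * single n 1)
    (hf : ∀ u ∈ D, u ≠ 1 → ∀ K, IsK p u K → rs (Cu u : Set G) f = av k K)
    (hcN : ∀ n ∈ normalizer (D : Set G), single n 1 * c = c * single n 1)
    (hcO : ∀ o ∈ O, single o 1 * c = c)
    (hc : c * rs (normalizer (D : Set G) : Set G) f = av k O)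
    {x y : G} (hx : x ∈ D) (hy : y ∈ D) (hxy : x ≠ 1 ∨ y ≠ 1) {g h : G} (hg : x * g = g * y)
    (hh : x * h = h * y) :
    (f * single g 1 * f - c * rs (normalizer (D : Set G) : Set G) (f * single g 1 * f) * f).coeff h
      = 0 := by
  set N : Subgroup G := normalizer (D : Set G) with hN
  have hab : IsMulCommutative (D : Subgroup G) :=
    ⟨⟨fun a b => Subtype.ext (hD.ab a a.2 b b.2)⟩⟩
  have hDN : ∀ g ∈ D, g ∈ N := fun g hg => le_norm hg
  have hx1 : x ≠ 1 := by
    rintro rfl
    refine hxy.elim (fun h => h rfl) (fun h => h ?_)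
    rw [one_mul] at hg
    exact (mul_eq_left.1 hg.symm)
  have hy' : g⁻¹ * x * g = y := by rw [mul_assoc, hg, inv_mul_cancel_left]
  obtain ⟨n, hn, hn'⟩ := D.conj_eq_normalizer_conj_of_mem x g hx (by rw [hy']; exact hy)
  have hn : n ∈ N := hn
  have hnN : n⁻¹ ∈ N := inv_mem hn
  rw [hy'] at hn'
  have hny : n⁻¹ * x = y * n⁻¹ := by rw [hn']; group
  have hg' : x * (g * n⁻¹) = (g * n⁻¹) * x := by
    calc x * (g * n⁻¹) = (x * g) * n⁻¹ := by group
      _ = g * (y * n⁻¹) := by rw [hg]; group
      _ = _ := by rw [← hny]; group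
  have hh' : x * (h * n⁻¹) = (h * n⁻¹) * x := by
    calc x * (h * n⁻¹) = (x * h) * n⁻¹ := by group
      _ = h * (y * n⁻¹) := by rw [hh]; group
      _ = _ := by rw [← hny]; group
  set g' := g * n⁻¹ with hgdef
  -- reduction to `g'`
  have hgn : (single g 1 : MonoidAlgebra k G) = single g' 1 * single n 1 := by
    rw [MonoidAlgebra.single_mul_single, mul_one, hgdef, inv_mul_cancel_right]
  have hred : f * single g 1 * f - c * rs (N : Set G) (f * single g 1 * f) * f =
      (f * single g' 1 * f - c * rs (N : Set G) (f * single g' 1 * f) * f) * single n 1 := by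
    have h1 : f * single g 1 * f = f * single g' 1 * f * single n 1 := by
      rw [hgn]
      calc f * (single g' 1 * single n 1) * f = f * single g' 1 * (single n 1 * f) := by
            simp only [mul_assoc]
        _ = _ := by rw [hfN n hn]; simp only [mul_assoc]
    rw [h1, rs_mul_right (spt_single (SetLike.mem_coe.2 hn) 1), sub_mul]
    congr 1
    calc c * (rs (N : Set G) (f * single g' 1 * f) * single n 1) * f =
        c * rs (N : Set G) (f * single g' 1 * f) * (single n 1 * f) := by simp only [mul_assoc]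
      _ = _ := by rw [hfN n hn]; simp only [mul_assoc]
  rw [hred, coeff_mul_single]
  have hhC : h * n⁻¹ ∈ Cu x := mem_Cu.2 hh'.symm
  rw [← coeff_rs_of_mem (S := (Cu x : Set G)) _ (SetLike.mem_coe.2 hhC)]
  -- the Brauer homomorphism
  obtain ⟨K, hK, hcard, hfac⟩ := hD.exists_compl hx hx1
  have hK : IsK p x K := hK
  have hcK : (Nat.card K : k) ≠ 0 := natCast_ne_zero' hcard
  have hcOO : (Nat.card O : k) ≠ 0 := natCast_ne_zero' (hO.card_ne hD hx hx1)
  have hOK : O ≤ K := fun z hz => (hK z).2 ⟨hD.cent_le hx ((hO z).1 hz).1, ((hO z).1 hz).2⟩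
  have hKu : K ≤ Cu x := fun z hz => mem_Cu.2 ((hK z).1 hz).1
  obtain ⟨κ, hκ, d, hd, hgd⟩ := hfac g' hg'.symm
  suffices hz : rs (Cu x : Set G) (f * single g' 1 * f -
      c * rs (N : Set G) (f * single g' 1 * f) * f) = 0 by
    rw [hz]; rfl
  -- commutation with `D`: only with `x`
  have hxP : IsPGroup p (zpowers x) := D.2.to_le (zpowers_le.2 hx)
  have hcx : ∀ a : MonoidAlgebra k G, single x 1 * a = a * single x 1 →
      ∀ z ∈ zpowers x, single z 1 * a = a * single z 1 := by
    intro a ha z hz
    have h1 : (zpowers x) ≤ Subgroup.comap (MonoidHom.id G)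
        { carrier := {z : G | single z 1 * a = a * single z 1}
          one_mem' := by
            change single 1 1 * a = a * single 1 1
            rw [← MonoidAlgebra.one_def, one_mul, mul_one]
          mul_mem' := by
            intro s t hs ht
            have hs : single s 1 * a = a * single s 1 := hs
            have ht : single t 1 * a = a * single t 1 := ht
            change single (s * t) 1 * a = a * single (s * t) 1
            have h2 : (single (s * t) 1 : MonoidAlgebra k G) = single s 1 * single t 1 := by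
              rw [MonoidAlgebra.single_mul_single, mul_one]
            rw [h2, mul_assoc, ht, ← mul_assoc, hs, mul_assoc]
          inv_mem' := by
            intro s hs
            have hs : single s 1 * a = a * single s 1 := hs
            change single s⁻¹ 1 * a = a * single s⁻¹ 1
            rw [commute_iff] at hs ⊢
            intro z
            rw [← hs (s⁻¹ * z * s⁻¹⁻¹)]
            congr 1
            group } := by
      rw [zpowers_le]
      exact ha
    exact h1 hz
  have hbr : ∀ a b : MonoidAlgebra k G, single x 1 * a = a * single x 1 →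
      single x 1 * b = b * single x 1 →
      rs (Cu x : Set G) (a * b) = rs (Cu x : Set G) a * rs (Cu x : Set G) b := fun a b ha hb =>
    br_mul hxP (hcx a ha) (hcx b hb)
  have hfx := hfN x (hDN x hx)
  have hgx : (single x 1 * single g' 1 : MonoidAlgebra k G) = single g' 1 * single x 1 := by
    rw [MonoidAlgebra.single_mul_single, MonoidAlgebra.single_mul_single, hg']
  have hmul : ∀ a b : MonoidAlgebra k G, single x 1 * a = a * single x 1 →
      single x 1 * b = b * single x 1 → single x 1 * (a * b) = a * b * single x 1 :=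
    fun a b ha hb => Commute.mul_right (show Commute (single x 1) a from ha)
      (show Commute (single x 1) b from hb)
  have hfg : single x 1 * (f * single g' 1) = f * single g' 1 * single x 1 := hmul _ _ hfx hgx
  have hfgf : single x 1 * (f * single g' 1 * f) = f * single g' 1 * f * single x 1 :=
    hmul _ _ hfg hfx
  have hrx : single x 1 * rs (N : Set G) (f * single g' 1 * f) =
      rs (N : Set G) (f * single g' 1 * f) * single x 1 := by
    rw [← rs_mul_left (spt_single (SetLike.mem_coe.2 (hDN x hx)) 1), hfgf,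
      rs_mul_right (spt_single (SetLike.mem_coe.2 (hDN x hx)) 1)]
  have hcxx := hcN x (hDN x hx)
  have hcr : single x 1 * (c * rs (N : Set G) (f * single g' 1 * f)) =
      c * rs (N : Set G) (f * single g' 1 * f) * single x 1 := hmul _ _ hcxx hrx
  have hg'C : g' ∈ Cu x := mem_Cu.2 hg'.symm
  have heg : av k K * single g' 1 = single g' 1 * av k K := (commute_av (hK.conj hg'C)).symm
  have hegd : av k K * single g' 1 = av k K * single d 1 := by
    have h1 : (single g' 1 : MonoidAlgebra k G) = single κ 1 * single d 1 := by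
      rw [MonoidAlgebra.single_mul_single, mul_one, hgd]
    rw [h1, ← mul_assoc, av_mul_single hκ]
  have hB1 : rs (Cu x : Set G) (f * single g' 1 * f) = av k K * single d 1 := by
    rw [hbr _ _ hfg hfx, hbr _ _ hfx hgx, hf x hx hx1 K hK,
      rs_of_spt (spt_single (SetLike.mem_coe.2 hg'C) 1), heg, mul_assoc, av_mul_self hcK, ← heg,
      hegd]
  have hNC : rs (N : Set G) (av k K) = av k O := by
    ext z
    rw [coeff_rs, coeff_av, coeff_av, card_K_eq hD hx hK hO]
    by_cases hz : z ∈ O
    · rw [if_pos (SetLike.mem_coe.2 (centralizer_le_normalizer _ ((hO z).1 hz).1)),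
        if_pos (hOK hz), if_pos hz]
    · rw [if_neg hz]
      by_cases hzN : z ∈ N
      · rw [if_pos (SetLike.mem_coe.2 hzN), if_neg]
        intro hzK
        exact hz ((hO z).2 ⟨hD.free x hx hx1 z hzN ((hK z).1 hzK).1, ((hK z).1 hzK).2⟩)
      · rw [if_neg (fun h => hzN (SetLike.mem_coe.1 h))]
  have hswap : ∀ a : MonoidAlgebra k G, rs (Cu x : Set G) (rs (N : Set G) a) =
      rs (N : Set G) (rs (Cu x : Set G) a) := fun a => by
    rw [rs_rs, rs_rs, Set.inter_comm]
  have hdN : d ∈ N := hDN d hd
  have hB2 : rs (Cu x : Set G) (rs (N : Set G) (f * single g' 1 * f)) =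
      av k O * single d 1 := by
    rw [hswap, hB1, rs_mul_right (spt_single (SetLike.mem_coe.2 hdN) 1), hNC]
  have hrfx : single x 1 * rs (N : Set G) f = rs (N : Set G) f * single x 1 := by
    rw [← rs_mul_left (spt_single (SetLike.mem_coe.2 (hDN x hx)) 1), hfx,
      rs_mul_right (spt_single (SetLike.mem_coe.2 (hDN x hx)) 1)]
  have hB3 : rs (Cu x : Set G) c * av k O = av k O := by
    have h1 := congrArg (rs (Cu x : Set G)) hc
    rw [hbr _ _ hcxx hrfx, hswap, hf x hx hx1 K hK, hNC,
      rs_of_spt ((av_spt O).mono (fun z hz => hKu (hOK hz)))] at h1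
    exact h1
  rw [map_sub, hB1, hbr _ _ hcr hfx, hbr _ _ hcxx hrx, hB2, hf x hx hx1 K hK, ← mul_assoc, hB3]
  have hdK : (single d 1 * av k K : MonoidAlgebra k G) = av k K * single d 1 :=
    commute_av (hK.conj (mem_Cu.2 (hD.ab d hd x hx)))
  rw [mul_assoc, hdK, ← mul_assoc, av_mul_of_left hOK hcOO, sub_self]

end

end Vale.P179.H531
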