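import Vale.Agent.P179.H531.Fin
import Vale.Agent.P179.H875.S0cPack
import Vale.Agent.P179.Sgn.Final

/-!
# The module S0
-/

namespace Vale.P179.H531

open Finset MonoidAlgebra Subgroup Vale.P179.Sgn Vale.P179.H875

open scoped Classical

set_option linter.unusedSectionVars false

section

variable {p : ℕ} [hp : Fact p.Prime] {k : Type} [Field k] [CharP k p]
  {G : Type} [Group G] [Fintype G] {P : Sylow p G} {e : ℕ}

theorem freeSyl (h : Hyp p G P e) : FreeSyl P :=
  ⟨h.comm, fun u hu hu1 n hn hnu => h.free n hn u hu hu1 hnu⟩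

theorem exists_ne (h : Hyp p G P e) : ∃ u ∈ P, u ≠ 1 := by
  by_contra hc
  push Not at hc
  exact h.ne (eq_bot_iff.2 fun x hx => Subgroup.mem_bot.2 (hc x hx))

theorem binput {b : MonoidAlgebra k G} (hb : P179C.IsBlock b) (hp : P179X.IsPrincipal b) :
    BInput k b where
  central a := Subalgebra.mem_center_iff.1 hb.1 a
  idem := hb.2.1
  aug := by
    have h1 : ∑ᶠ g : G, b.coeff g = 1 := hp
    rwa [finsum_eq_sum_of_fintype] at h1
  prim e he hee heb := hb.2.2.2 e (Subalgebra.mem_center_iff.2 he) hee heb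

theorem coprime_iff {x : G} : (orderOf x).Coprime p ↔ ¬ p ∣ orderOf x := by
  rw [Nat.coprime_comm]
  exact Nat.Prime.coprime_iff_not_dvd hp.1

/-- **Module S0.** -/
theorem s0 : S0 := by
  intro p hp k _ _ _ G _ _ P e h b hb hbp Γ _ _ q hq hker
  have hD := freeSyl h
  obtain ⟨u, hu, hu1⟩ := exists_ne h
  obtain ⟨O, hO, hOcard, hfac⟩ := hD.exists_O hu hu1
  have hO : IsO P O := hO
  have hB := binput hb hbp
  obtain ⟨f, c, hI⟩ := exists_cinput hD ⟨u, hu, hu1⟩ hO hB
  have hker' : ∀ n : normalizer ((P : Subgroup G) : Set G), q n = 1 ↔ (n : G) ∈ O := by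
    intro n
    rw [hker, hO, coprime_iff]
    rfl
  have hK0 : (Nat.card O : k) ≠ 0 := natCast_ne_zero' hOcard
  have hON : O ≤ normalizer ((P : Subgroup G) : Set G) :=
    fun x hx => centralizer_le_normalizer _ ((hO x).1 hx).1
  have hPN : (P : Subgroup G) ≤ normalizer ((P : Subgroup G) : Set G) := Subgroup.le_normalizer
  have hidx1 : ¬ p ∣ ((P : Subgroup G).subgroupOf (normalizer ((P : Subgroup G) : Set G))).index :=
    (P.subtype hPN).not_dvd_index
  have hidx2 : ¬ p ∣ (normalizer ((P : Subgroup G) : Set G)).index := fun hdvd =>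
    P.not_dvd_index (hdvd.trans (Subgroup.index_dvd_of_le hPN))
  have hcard : (Fintype.card Γ : k) = 0 := by
    rw [CharP.cast_eq_zero_iff k p]
    have h1 : q ⟨u, hPN hu⟩ ≠ 1 := by
      intro h1
      rw [hker', hO] at h1
      obtain ⟨m, hm⟩ := P.2 ⟨u, hu⟩
      have hm' : u ^ p ^ m = 1 := congrArg Subtype.val hm
      have h2 : orderOf u ∣ p ^ m := orderOf_dvd_of_pow_eq_one hm'
      have h3 : Nat.Coprime (orderOf u) (p ^ m) :=
        Nat.Coprime.pow_right m (coprime_iff.2 h1.2)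
      exact hu1 (orderOf_eq_one_iff.1 (Nat.eq_one_of_dvd_coprimes h3 dvd_rfl h2))
    obtain ⟨m, hm⟩ := P.2 ⟨u, hu⟩
    have hm' : (⟨u, hPN hu⟩ : normalizer ((P : Subgroup G) : Set G)) ^ p ^ m = 1 :=
      Subtype.ext (congrArg Subtype.val hm : u ^ p ^ m = 1)
    have h2 : orderOf (q ⟨u, hPN hu⟩) ∣ p ^ m :=
      orderOf_dvd_of_pow_eq_one (by rw [← map_pow, hm', map_one])
    obtain ⟨i, -, hi⟩ := (Nat.dvd_prime_pow hp.1).1 h2
    have h3 : p ∣ orderOf (q ⟨u, hPN hu⟩) := by
      rcases Nat.eq_zero_or_pos i with rfl | hi0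
      · rw [pow_zero] at hi
        exact absurd (orderOf_eq_one_iff.1 hi) h1
      · rw [hi]
        exact dvd_pow_self p hi0.ne'
    exact h3.trans (orderOf_dvd_card)
  obtain ⟨𝒟, h𝒟⟩ := kdata_exists hI hB q hq hker' hK0 hON hPN (natCast_ne_zero' hidx1)
    (natCast_ne_zero' hidx2) hcard
  refine ⟨f, CR hI, inferInstance, inferInstance, finiteDimensional_CR hI, nontrivial_CR hI,
    cvalL hI.idem, 𝒟, hI.idem, hI.b0_mul, cval_injective hI.idem, fun x y => rfl, rfl, ?_, h𝒟,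
    zloc hI hB (natCast_ne_zero' hidx2)⟩
  intro a ha
  exact ⟨cmk hI.idem a, ha⟩

end

end Vale.P179.H531
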