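import Vale.Agent.P179.H175.Fit

/-!
# START (ALLB): primitive idempotents of a subalgebra
-/

set_option autoImplicit false

namespace Vale.P179.H531

open Polynomial

section

variable {k A R : Type*} [Field k] [Ring A] [Algebra k A] [FiniteDimensional k A] [Ring R]

/-- the range of `a ↦ i a i` -/
def cr (k : Type*) {A : Type*} [Field k] [Ring A] [Algebra k A] (i : A) : Submodule k A where
  carrier := {a | i * a = a ∧ a * i = a}
  add_mem' := fun {a b} ha hb => ⟨by rw [mul_add, ha.1, hb.1], by rw [add_mul, ha.2, hb.2]⟩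
  zero_mem' := ⟨mul_zero _, zero_mul _⟩
  smul_mem' := fun c a ha => ⟨by rw [mul_smul_comm, ha.1], by rw [smul_mul_assoc, ha.2]⟩

/-- an idempotent with `ψ i ≠ 0` below `B`, such that the elements of `i A i` are nilpotent or
invertible -/
theorem exists_prim (k : Type*) {A R : Type*} [Field k] [Ring A] [Algebra k A]
    [FiniteDimensional k A] [Ring R] (ψ : A → R) (hadd : ∀ a b, ψ (a + b) = ψ a + ψ b) {B : A} (hB : B * B = B)
    (hψB : ψ B ≠ 0) :
    ∃ i : A, i * i = i ∧ B * i = i ∧ i * B = i ∧ ψ i ≠ 0 ∧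
      ∀ a, i * a = a → a * i = a → IsNilpotent a ∨ ∃ a', i * a' = a' ∧ a' * i = a' ∧
        a * a' = i ∧ a' * a = i := by
  classical
  let S : Set A := {i | i * i = i ∧ B * i = i ∧ i * B = i ∧ ψ i ≠ 0}
  have hS : B ∈ S := ⟨hB, hB, hB, hψB⟩
  let f : A → ℕ := fun i => Module.finrank k (cr k i)
  obtain ⟨i, hiS, hmin⟩ : ∃ i ∈ S, ∀ j ∈ S, f i ≤ f j := by
    have hne : (f '' S).Nonempty := ⟨f B, B, hS, rfl⟩
    obtain ⟨i, hi, hfi⟩ := Nat.sInf_mem hne
    exact ⟨i, hi, fun j hj => by rw [hfi]; exact Nat.sInf_le ⟨j, hj, rfl⟩⟩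
  obtain ⟨hii, hBi, hiB, hψi⟩ := hiS
  -- idempotents below `i`
  have hprim : ∀ e : A, e * e = e → i * e = e → e * i = e → e = 0 ∨ e = i := by
    have key : ∀ e : A, e * e = e → i * e = e → e * i = e → ψ e ≠ 0 → e = i := by
      intro e hee hie hei hψe
      have heS : e ∈ S := ⟨hee, by rw [← hie, ← mul_assoc, hBi], by rw [← hei, mul_assoc, hiB],
        hψe⟩
      have hle : cr k e ≤ cr k i := fun a ha =>
        ⟨by rw [← ha.1, ← mul_assoc, hie], by rw [← ha.2, mul_assoc, hei]⟩
      have heq : cr k e = cr k i := Submodule.eq_of_le_of_finrank_le hle (hmin e heS)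
      have hi : i ∈ cr k e := by rw [heq]; exact ⟨hii, hii⟩
      rw [← hi.1, hei]
    intro e hee hie hei
    by_cases hψe : ψ e = 0
    · left
      have h1 : ψ (i - e) ≠ 0 := by
        intro h
        apply hψi
        have h2 := hadd (i - e) e
        rw [sub_add_cancel, h, hψe, add_zero] at h2
        exact h2
      have h2 := key (i - e) (by
        rw [sub_mul, mul_sub, mul_sub, hii, hie, hei, hee]; abel) (by rw [mul_sub, hii, hie])
        (by rw [sub_mul, hii, hei]) h1
      have h3 : i - (i - e) = 0 := by rw [h2]; exact sub_self i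
      rwa [sub_sub_cancel] at h3
    · exact Or.inr (key e hee hie hei hψe)
  refine ⟨i, hii, hBi, hiB, hψi, fun a hia hai => ?_⟩
  obtain ⟨q, n, h1, h2⟩ := H175.exists_fit (K := k) a
  have hc : aeval a q * a = a * aeval a q := by
    have h3 : aeval a (q * X) = aeval a (X * q) := by rw [mul_comm]
    rwa [map_mul, map_mul, aeval_X] at h3
  have hie : i * (a * aeval a q) = a * aeval a q := by rw [← mul_assoc, hia]
  have hei : a * aeval a q * i = a * aeval a q := by rw [← hc, mul_assoc, hai]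
  rcases hprim _ h1 hie hei with h0 | h0
  · left
    refine ⟨n, ?_⟩
    rwa [h0, sub_zero, mul_one] at h2
  · right
    refine ⟨i * aeval a q * i, by rw [← mul_assoc, ← mul_assoc, hii], by rw [mul_assoc, hii], ?_,
      ?_⟩
    · rw [← mul_assoc, ← mul_assoc, hai, h0, hii]
    · rw [mul_assoc, hia, mul_assoc, hc, h0, hii]

end

end Vale.P179.H531
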