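import Vale.Agent.P179.H531.St0
import Vale.Agent.P179.H531.St1

/-!
# START (ALLB): transfer between `k[C]` and `k[G]`
-/

set_option autoImplicit false

namespace Vale.P179.H531

open Subgroup P179H46 P179H524 P179H364W P179C P179P P179Y P179H12 P179A

open scoped Classical

set_option linter.unusedSectionVars false

section Inc

variable {k : Type} [Field k] {G : Type} [Group G] [Fintype G]

/-- the inclusion `k[C] → k[G]` -/
noncomputable def inc (k : Type) [Field k] {G : Type} [Group G] (C : Subgroup G) :
    MonoidAlgebra k C →ₐ[k] MonoidAlgebra k G :=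
  MonoidAlgebra.mapDomainAlgHom k k C.subtype

theorem inc_single (C : Subgroup G) (h : C) (c : k) :
    inc k C (MonoidAlgebra.single h c) = MonoidAlgebra.single (h : G) c := by
  simp [inc]

theorem coeff_inc (C : Subgroup G) (a : MonoidAlgebra k C) (h : C) :
    (inc k C a).coeff (h : G) = a.coeff h := by
  induction a using MonoidAlgebra.induction_linear with
  | zero => simp
  | add a b ha hb =>
    rw [map_add, MonoidAlgebra.coeff_add, MonoidAlgebra.coeff_add, Finsupp.add_apply,
      Finsupp.add_apply, ha, hb]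
  | single g c =>
    rw [inc_single, MonoidAlgebra.coeff_single, MonoidAlgebra.coeff_single, Finsupp.single_apply,
      Finsupp.single_apply]
    simp only [Subtype.ext_iff]

theorem inc_sup (C : Subgroup G) (a : MonoidAlgebra k C) : Sup C (inc k C a) := by
  intro x hx
  induction a using MonoidAlgebra.induction_linear with
  | zero => simp
  | add a b ha hb => rw [map_add, MonoidAlgebra.coeff_add, Finsupp.add_apply, ha, hb, add_zero]
  | single g c =>
    rw [inc_single, MonoidAlgebra.coeff_single, Finsupp.single_apply, if_neg]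
    rintro rfl
    exact hx g.2

theorem inc_inj (C : Subgroup G) {a b : MonoidAlgebra k C} (h : inc k C a = inc k C b) :
    a = b := by
  ext x
  rw [← coeff_inc, ← coeff_inc, h]

theorem exists_inc {C : Subgroup G} {a : MonoidAlgebra k G} (ha : Sup C a) :
    ∃ a', inc k C a' = a := by
  refine ⟨mkF fun h : C => a.coeff h, ?_⟩
  ext x
  by_cases hx : x ∈ C
  · have h1 := coeff_inc C (mkF fun h : C => a.coeff h) ⟨x, hx⟩
    change (inc k C (mkF fun h : C => a.coeff h)).coeff x = _ at h1
    rw [h1, coeff_mkF]
  · rw [inc_sup C _ x hx, ha x hx]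

theorem isNilpotent_inc (C : Subgroup G) {a : MonoidAlgebra k C} :
    IsNilpotent (inc k C a) ↔ IsNilpotent a := by
  constructor
  · rintro ⟨n, hn⟩
    refine ⟨n, inc_inj C ?_⟩
    rw [map_pow, hn, map_zero]
  · intro h
    exact h.map _

theorem mkF_bF' (C : Subgroup G) (b : MonoidAlgebra k C) : mkF (bF C b) = inc k C b := by
  ext x
  rw [coeff_mkF]
  unfold bF
  by_cases hx : x ∈ C
  · rw [ext_of_mem C _ hx]
    exact (coeff_inc C b ⟨x, hx⟩).symm
  · rw [ext_of_not_mem C _ hx, inc_sup C b x hx]

theorem sup_cn {C : Subgroup G} {t : G} (ht : ∀ x ∈ C, t * x * t⁻¹ ∈ C) {a : MonoidAlgebra k G}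
    (ha : Sup C a) : Sup C (cn t a) := by
  intro x hx
  rw [coeff_cn]
  refine ha _ fun h => hx ?_
  have := ht _ h
  have e1 : t * (t⁻¹ * x * t) * t⁻¹ = x := by group
  rwa [e1] at this

theorem cn_pow (t : G) (a : MonoidAlgebra k G) (n : ℕ) : cn t (a ^ n) = cn t a ^ n := by
  induction n with
  | zero => rw [pow_zero, pow_zero, cn, mul_one, sg_mul_inv]
  | succ n ih => rw [pow_succ, pow_succ, cn_mul', ih]

theorem isNilpotent_cn {t : G} {a : MonoidAlgebra k G} (h : IsNilpotent a) :
    IsNilpotent (cn t a) := by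
  obtain ⟨n, hn⟩ := h
  exact ⟨n, by rw [← cn_pow, hn, cn_zero]⟩

theorem cn_cn_inv (t : G) (a : MonoidAlgebra k G) : cn t (cn t⁻¹ a) = a := by
  rw [← cn_mul, mul_inv_cancel, cn_one]

theorem cn_inv_cn (t : G) (a : MonoidAlgebra k G) : cn t⁻¹ (cn t a) = a := by
  rw [← cn_mul, inv_mul_cancel, cn_one]

/-- local corners are transported to `k[C]` -/
theorem locJ_inc {C : Subgroup G} {j' : MonoidAlgebra k C}
    (h : LocJ (fun a => Sup C a) (inc k C j')) : LocJ (fun _ => True) j' := by
  intro a _ h1 h2
  have hid : ∀ x : MonoidAlgebra k C, inc k C x ∈ {y | Sup C y} := fun x => inc_sup C x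
  rcases h (inc k C a) (inc_sup C a) (by rw [← map_mul, h1]) (by rw [← map_mul, h2]) with h3 | h3
  · exact Or.inl ((isNilpotent_inc C).1 h3)
  · right
    obtain ⟨a', ha1, ha2, ha3, ha4⟩ := h3
    -- `a'` is supported on `C`: it is `j a' j`, hence the inverse in the corner of `k[C]`
    -- obtained from finite dimensionality: use the restriction
    obtain ⟨q, n, hq1, hq2⟩ := H175.exists_fit (K := k) a
    have hinv : ∀ y : MonoidAlgebra k C, a * y = 0 → j' * y = 0 := by
      intro y hy
      apply inc_inj C
      rw [map_mul, map_zero, ← ha4, mul_assoc, ← map_mul, hy, map_zero, mul_zero]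
    have hpow : ∀ (n : ℕ) (y : MonoidAlgebra k C), a ^ n * y = 0 → j' * y = 0 := by
      intro n
      induction n with
      | zero =>
        intro y hy
        rw [pow_zero, one_mul] at hy
        rw [hy, mul_zero]
      | succ n ih =>
        intro y hy
        rw [pow_succ, mul_assoc] at hy
        have h4 := ih (a * y) hy
        rw [← mul_assoc, h1] at h4
        exact hinv y h4
    have h4 := hpow n _ hq2
    rw [mul_sub, mul_one, sub_eq_zero, ← mul_assoc, h1] at h4
    -- `j' = a * q(a)`
    have hc : Polynomial.aeval a q * a = a * Polynomial.aeval a q := by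
      have h3 : Polynomial.aeval a (q * Polynomial.X) = Polynomial.aeval a (Polynomial.X * q) := by
        rw [mul_comm]
      rwa [map_mul, map_mul, Polynomial.aeval_X] at h3
    have hjj : j' * j' = j' := by
      have h5 : inc k C j' * inc k C j' = inc k C j' := by rw [← ha4, ← mul_assoc, mul_assoc (a'), mul_assoc a', ha3, ← mul_assoc, ha2]
      apply inc_inj C
      rw [map_mul, h5]
    refine ⟨j' * Polynomial.aeval a q * j', by rw [← mul_assoc, ← mul_assoc, hjj],
      by rw [mul_assoc, hjj], ?_, ?_⟩
    · rw [← mul_assoc, ← mul_assoc, h2, ← h4, hjj]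
    · rw [mul_assoc, h1, mul_assoc, hc, ← h4, hjj]

end Inc

end Vale.P179.H531
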