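import Vale.Agent.P179.H531.St2

/-!
# START (ALLB): the source idempotent of a block
-/

set_option autoImplicit false

namespace Vale.P179.H531

open Subgroup P179H46 P179H524 P179H364W P179C P179P P179Y P179H12 P179A

open P179B (inertialGroup inertialIndex regularElements)

open scoped Classical

set_option linter.unusedSectionVars false

section Main

variable {p : ℕ} [hp : Fact p.Prime] {k : Type} [Field k] [IsAlgClosed k] [CharP k p] {G : Type}
  [Group G] [Fintype G]

theorem coeff_conv_self {B : MonoidAlgebra k G} (h : B * B = B) :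
    conv (fun g => B.coeff g) (fun g => B.coeff g) = fun g => B.coeff g := by
  funext x
  conv_rhs => rw [← h, coeff_mul_eq_conv]

/-- the block `B` and the block `e_D` -/
theorem brk_block_mul {B : MonoidAlgebra k G} (hB : IsBlock B) {D : Subgroup G}
    {l : (G → k) → k} (hl : BP p D l) (hD : IsPGroup p D) (hab : D ≤ centralizer (D : Set G))
    (hlz : ∀ z : G → k, IsCF z → l z = centralChar B (mkF z)) :
    brk D B * mkF (eH (centralizer (D : Set G)) l) = mkF (eH (centralizer (D : Set G)) l) := by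
  have hcf : IsCF (fun g => B.coeff g) := (P179C.mem_center_iff _).1 hB.1
  have hm : MulH (centralizer (D : Set G)) l := BP.mulH hl hD hab le_rfl
  rw [brk, ← mkF_conv]
  congr 1
  refine conv_eH hm (invOn_cutC' fun h _ x => hcf h x) ?_ ?_
  · rw [← cutC_conv p hD (fun d _ x => hcf d x) (fun d _ x => hcf d x), coeff_conv_self hB.2.1]
  · rw [hl.cut, hlz _ hcf, mkF_coeff, centralChar_self B hB]
    exact one_ne_zero

/-- a primitive idempotent of the fixed algebra on which `e_D` does not vanish -/
theorem exists_i {B : MonoidAlgebra k G} (hB : IsBlock B) {D : Subgroup G}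
    (hD : IsPGroup p D) {eD : MonoidAlgebra k G} (he : eD ≠ 0) (hBe : brk D B * eD = eD) :
    ∃ i : MonoidAlgebra k G, Fxd D i ∧ i * i = i ∧ B * i = i ∧ brk D i * eD ≠ 0 ∧
      LocJ (fun a => Fxd D a) i := by
  have hBf : Fxd D B := fun d _ => cn_of_center (Subalgebra.mem_center_iff.1 hB.1) d
  obtain ⟨i, h1, h2, -, h4, h5⟩ := exists_prim k (A := fixA k D)
    (fun a => brk D a.1 * eD) (fun a b => by
      change brk D (a.1 + b.1) * eD = _
      rw [brk_add, add_mul]) (B := ⟨B, hBf⟩) (Subtype.ext hB.2.1) (by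
      change brk D B * eD ≠ 0
      rw [hBe]
      exact he)
  refine ⟨i.1, i.2, congrArg Subtype.val h1, congrArg Subtype.val h2, h4, ?_⟩
  intro a ha hia hai
  rcases h5 ⟨a, ha⟩ (Subtype.ext hia) (Subtype.ext hai) with ⟨n, hn⟩ | ⟨a', e1, e2, e3, e4⟩
  · exact Or.inl ⟨n, congrArg Subtype.val hn⟩
  · exact Or.inr ⟨a'.1, congrArg Subtype.val e1, congrArg Subtype.val e2,
      congrArg Subtype.val e3, congrArg Subtype.val e4⟩

theorem Fxd.pow' {P : Subgroup G} {a : MonoidAlgebra k G} (ha : Fxd P a) (n : ℕ) :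
    Fxd P (a ^ n) := by
  induction n with
  | zero =>
    intro d _
    rw [pow_zero, cn, mul_one, sg_mul_inv]
  | succ n ih =>
    rw [pow_succ]
    exact ih.mul ha

theorem brk_pow {P : Subgroup G} (hP : IsPGroup p P) {a : MonoidAlgebra k G} (ha : Fxd P a)
    (n : ℕ) : brk P (a ^ n) = brk P a ^ n := by
  induction n with
  | zero => rw [pow_zero, pow_zero, brk_one]
  | succ n ih => rw [pow_succ, pow_succ, brk_mul hP (Fxd.pow' ha n) ha, ih]

theorem brk_zero' (P : Subgroup G) : brk P (0 : MonoidAlgebra k G) = 0 := by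
  have h := brk_smul P (0 : k) (0 : MonoidAlgebra k G)
  rwa [zero_smul, zero_smul] at h

theorem isNilpotent_brk {P : Subgroup G} (hP : IsPGroup p P) {a : MonoidAlgebra k G}
    (ha : Fxd P a) (h : IsNilpotent a) : IsNilpotent (brk P a) := by
  obtain ⟨n, hn⟩ := h
  exact ⟨n, by rw [← brk_pow hP ha, hn, brk_zero']⟩

theorem fxd_inv {D : Subgroup G} {i y y' : MonoidAlgebra k G} (hi : Fxd D i) (hy : Fxd D y)
    (h1 : i * y' = y') (h2 : y' * i = y') (h3 : y * y' = i) (h4 : y' * y = i) : Fxd D y' := by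
  intro d hd
  calc cn d y' = cn d (y' * i) := by rw [h2]
    _ = cn d y' * (y * y') := by rw [cn_mul', hi d hd, h3]
    _ = cn d y' * cn d y * y' := by rw [hy d hd, mul_assoc]
    _ = y' := by rw [← cn_mul', h4, hi d hd, h1]

/-- the local corner after the Brauer homomorphism -/
theorem locJ_brk {D : Subgroup G} (hD : IsPGroup p D) {i : MonoidAlgebra k G}
    (hi : Fxd D i) (hii : i * i = i) (hloc : LocJ (fun a => Fxd D a) i) :
    LocJ (fun a => Sup (centralizer (D : Set G)) a) (brk D i) := by
  intro a ha h1 h2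
  have ha' : Fxd D a := ha.fxd
  have hy : Fxd D (i * a * i) := (hi.mul ha').mul hi
  have hby : brk D (i * a * i) = a := by
    rw [brk_mul hD (hi.mul ha') hi, brk_mul hD hi ha', brk_of_sup ha, h1, h2]
  rcases hloc _ hy (by rw [← mul_assoc, ← mul_assoc, hii]) (by rw [mul_assoc, hii]) with h | h
  · left
    rw [← hby]
    exact isNilpotent_brk hD hy h
  · right
    obtain ⟨y', e1, e2, e3, e4⟩ := h
    have hy' := fxd_inv hi hy e1 e2 e3 e4
    refine ⟨brk D y', ?_, ?_, ?_, ?_⟩
    · rw [← brk_mul hD hi hy', e1]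
    · rw [← brk_mul hD hy' hi, e2]
    · conv_lhs => rw [← hby]
      rw [← brk_mul hD hy hy', e3]
    · conv_lhs => rw [← hby]
      rw [← brk_mul hD hy' hy, e4]

/-- the idempotent `i` lies below the pairs -/
theorem ei_of {D Q : Subgroup G} (hD : IsPGroup p D) (hQD : Q ≤ D)
    (hDQ : D ≤ centralizer (Q : Set G)) {i EQ eD : MonoidAlgebra k G}
    (hi : Fxd D i) (hii : i * i = i) (hloc : LocJ (fun a => Fxd D a) i)
    (hf : Fxd (centralizer (Q : Set G)) EQ) (hs : Sup (centralizer (Q : Set G)) EQ)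
    (hEE : EQ * EQ = EQ) (hDf : Fxd (centralizer (D : Set G)) eD) (hDD : eD * eD = eD)
    (hE : brk D EQ * eD = eD) (hne : brk D i * eD ≠ 0) : EQ * brk Q i = brk Q i := by
  have hfD : Fxd D EQ := hf.mono hDQ
  have hx : Fxd D (i * EQ * i) := (hi.mul hfD).mul hi
  have hjj : brk D i * brk D i = brk D i := by rw [← brk_mul hD hi hi, hii]
  have hcj : eD * brk D i = brk D i * eD := comm_of_sup hDf (brk_sup D i)
  rcases hloc _ hx (by rw [← mul_assoc, ← mul_assoc, hii]) (by rw [mul_assoc, hii]) with h | h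
  · exfalso
    apply hne
    obtain ⟨n, hn⟩ := isNilpotent_brk hD hx h
    have hw : brk D (i * EQ * i) * eD = brk D i * eD := by
      rw [brk_mul hD (hi.mul hfD) hi, brk_mul hD hi hfD]
      calc brk D i * brk D EQ * brk D i * eD
          = brk D i * (brk D EQ * eD * brk D i) := by
            rw [mul_assoc, mul_assoc, ← hcj, mul_assoc]
        _ = brk D i * (brk D i * eD) := by rw [hE, hcj]
        _ = brk D i * eD := by rw [← mul_assoc, hjj]
    have hpow : ∀ n : ℕ, brk D (i * EQ * i) ^ n * (brk D i * eD) = brk D i * eD := by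
      intro n
      induction n with
      | zero => rw [pow_zero, one_mul]
      | succ n ih =>
        have h5 : brk D (i * EQ * i) * (brk D i * eD) = brk D i * eD := by
          rw [← hcj, ← mul_assoc, hw, mul_assoc, hcj, ← mul_assoc, hjj]
        rw [pow_succ, mul_assoc, h5, ih]
    rw [← hpow n, hn, zero_mul]
  · obtain ⟨x', e1, e2, e3, e4⟩ := h
    have hx' := fxd_inv hi hx e1 e2 e3 e4
    have hQ : IsPGroup p Q := hD.to_le hQD
    have hiQ := hi.mono hQD
    have hcQ : EQ * brk Q i = brk Q i * EQ := comm_of_sup hf (brk_sup Q i)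
    have h5 : brk Q i = EQ * (brk Q i * brk Q i * brk Q x') := by
      have h6 : brk Q i = brk Q (i * EQ * i) * brk Q x' := by
        rw [← brk_mul hQ (hx.mono hQD) (hx'.mono hQD), e3]
      conv_lhs => rw [h6]
      rw [brk_mul hQ (hiQ.mul (hfD.mono hQD)) hiQ, brk_mul hQ hiQ (hfD.mono hQD), brk_of_sup hs,
        ← hcQ]
      simp only [mul_assoc]
    rw [h5, ← mul_assoc, hEE]

theorem locJ_cn {C : Subgroup G} {t : G} (ht : ∀ x ∈ C, t * x * t⁻¹ ∈ C)
    (ht' : ∀ x ∈ C, t⁻¹ * x * t⁻¹⁻¹ ∈ C) {j : MonoidAlgebra k G}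
    (h : LocJ (fun a => Sup C a) j) : LocJ (fun a => Sup C a) (cn t j) := by
  intro a ha h1 h2
  rcases h (cn t⁻¹ a) (sup_cn ht' ha) (by
    have := congrArg (cn t⁻¹) h1
    rwa [cn_mul', cn_inv_cn] at this) (by
    have := congrArg (cn t⁻¹) h2
    rwa [cn_mul', cn_inv_cn] at this) with h3 | ⟨a', e1, e2, e3, e4⟩
  · left
    rw [← cn_cn_inv t a]
    exact isNilpotent_cn h3
  · right
    refine ⟨cn t a', by rw [← cn_mul', e1], by rw [← cn_mul', e2], ?_, ?_⟩
    · conv_lhs => rw [← cn_cn_inv t a]
      rw [← cn_mul', e3]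
    · conv_lhs => rw [← cn_cn_inv t a]
      rw [← cn_mul', e4]

theorem brk_mkF (P : Subgroup G) (a : G → k) : brk P (mkF a) = mkF (cutC P a) := by
  rw [brk]
  congr 1
  funext g
  simp only [cutC, coeff_mkF]

/-- **The source idempotent of a block with abelian defect group.** -/
theorem exists_SD (hCENT : CENT) {B : MonoidAlgebra k G} (hB : IsBlock B) {D : Subgroup G}
    (hD : IsDefectGroup B D) (hab : ∀ a ∈ D, ∀ b ∈ D, a * b = b * a)
    {b : MonoidAlgebra k (centralizer (D : Set G))} (hb : IsBlock b) (hbB : InducesTo b B) :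
    (¬ p ∣ inertialIndex D b) ∧ ∃ (i : MonoidAlgebra k G) (E : Set G → MonoidAlgebra k G),
      SD p D (inertialGroup D b) i E ∧ B * i = i := by
  obtain ⟨l, hl, hlz, hlb⟩ := exists_BP_of_subblock (p := p) hB hD hab hb hbB
  have hDp := (exists_BP_of_block (p := p) B hB D hD).1
  have hT := hT_of_block hB hD hDp hab hl hlz
  have hTT := stabT_eq_inertialGroup hb hlb
  have habC : D ≤ centralizer (D : Set G) := by
    intro x hx
    rw [mem_centralizer_iff]
    intro y hy
    exact hab y hy x hx
  have hm : MulH (centralizer (D : Set G)) l := BP.mulH hl hDp habC le_rfl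
  have heD : mkF (eH (centralizer (D : Set G)) l) = inc k _ b := by
    rw [eH_eq hb hlb, mkF_bF']
  have heD0 : mkF (eH (centralizer (D : Set G)) l) ≠ 0 := by
    intro h
    have h1 := l_eH hm
    have h2 : eH (centralizer (D : Set G)) l = 0 := by
      funext x
      rw [← coeff_mkF (eH (centralizer (D : Set G)) l) x, h]
      rfl
    rw [h2, hm.zero] at h1
    exact zero_ne_one h1
  obtain ⟨i, hi, hii, hBi, hne, hloc⟩ := exists_i (p := p) hB hDp heD0
    (brk_block_mul hB hl hDp habC hlz)
  have hDf := fxd_mkF (invOn_eH hm)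
  have hDs := sup_mkF (invOn_eH hm).2
  have hDD : mkF (eH (centralizer (D : Set G)) l) * mkF (eH (centralizer (D : Set G)) l) =
      mkF (eH (centralizer (D : Set G)) l) := by rw [← mkF_conv, eH_idem hm]
  have hei : ∀ Q : Subgroup G, Q ≤ D →
      mkF (eH (centralizer (Q : Set G)) l) * brk Q i = brk Q i := by
    intro Q hQ
    have hDQ : D ≤ centralizer (Q : Set G) := habC.trans (centralizer_le hQ)
    have hCQ : centralizer (D : Set G) ≤ centralizer (Q : Set G) := centralizer_le hQ
    have hmQ : MulH (centralizer (Q : Set G)) l := BP.mulH hl hDp habC hCQ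
    refine ei_of hDp hQ hDQ hi hii hloc (fxd_mkF (invOn_eH hmQ)) (sup_mkF (invOn_eH hmQ).2)
      (by rw [← mkF_conv, eH_idem hmQ]) hDf hDD ?_ hne
    rw [brk_mkF, ← mkF_conv, cut_eH hl hDp habC le_rfl hDQ hCQ]
  have hjj : brk D i * brk D i = brk D i := by rw [← brk_mul hDp hi hi, hii]
  have hj0 : brk D i ≠ 0 := by
    intro h
    apply hne
    rw [h, zero_mul]
  have hlocj := locJ_brk hDp hi hii hloc
  obtain ⟨j', hj'⟩ := exists_inc (brk_sup D i)
  -- the central piece
  have hcent := hCENT p k (centralizer (D : Set G)) (D.subgroupOf (centralizer (D : Set G)))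
    hDp.comap_subtype (by
      intro d hd c
      exact Subtype.ext (mem_centralizer_iff.1 c.2 _ (mem_subgroupOf.1 hd))) b hb
    (isDefectGroup_low hl hDp hab hT habC le_rfl hb hlb).1
  have hbj : ∀ x : MonoidAlgebra k (centralizer (D : Set G)),
      mkF (eH (centralizer (D : Set G)) l) * inc k _ x = inc k _ x → b * x = x := by
    intro x hx
    apply inc_inj
    rw [map_mul, ← heD, hx]
  have hD1 := hcent j' (inc_inj _ (by rw [map_mul, hj', hjj]))
    (by
      rintro rfl
      rw [map_zero] at hj'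
      exact hj0 hj'.symm)
    (hbj j' (by rw [hj']; exact hei D le_rfl)) (locJ_inc (by rw [hj']; exact hlocj))
  refine ⟨?_, i, fun S => mkF (eH (centralizer S) l), ?_, hBi⟩
  · unfold inertialIndex
    rw [← hTT]
    exact hT
  constructor
  · exact hDp
  · exact habC
  · intro c hc
    refine ⟨?_, fun x y h => ?_⟩
    · rw [mem_normalizer_iff]
      intro d
      constructor
      · intro hd
        have h1 := mem_centralizer_iff.1 hc d hd
        rw [← h1, mul_inv_cancel_right]
        exact hd
      · intro hd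
        have h1 := mem_centralizer_iff.1 hc _ hd
        have h2 : d = c * d * c⁻¹ := by
          have h3 : c * d = c * (c * d * c⁻¹) := by rw [← h1]; group
          exact mul_left_cancel h3
        rw [h2]
        exact hd
    · have h1 : IsCF (fun g => b.coeff g) := (P179C.mem_center_iff _).1 hb.1
      have h2 : y = (⟨c, hc⟩ : centralizer (D : Set G)) * x * (⟨c, hc⟩)⁻¹ := Subtype.ext h
      rw [h2]
      exact h1 _ _
  · exact fun n hn => hn.1
  · exact hi
  · exact hii
  · exact hloc
  · exact hj0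
  · intro S hS
    exact fxd_mkF (invOn_eH (mulH_centS hl hDp habC hS))
  · intro S hS
    exact sup_mkF (invOn_eH (mulH_centS hl hDp habC hS)).2
  · intro S hS
    change mkF _ * mkF _ = mkF _
    rw [← mkF_conv, eH_idem (mulH_centS hl hDp habC hS)]
  · intro S t hS hSt
    rcases fusS hl hDp habC hT hS hSt with ⟨θ, hθ, h⟩ | h
    · left
      rw [hTT] at hθ
      exact ⟨θ, hθ, h⟩
    · right
      change mkF _ * cn t (mkF _) = 0
      rw [cn_mkF, ← mkF_conv, h, mkF_zero]
  · exact hei
  · intro ν hν h1 h2 h3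
    obtain ⟨ν', rfl⟩ := exists_inc hν
    have h4 := hD1.1 ν' (inc_inj _ (by rw [map_mul, hj', h1]))
      (inc_inj _ (by rw [map_mul, hj', h2])) ((isNilpotent_inc _).1 h3)
    have h5 := congrArg (inc k _) h4
    rw [map_mul, map_zero, map_sum] at h5
    rw [← h5]
    congr 1
    refine Fintype.sum_equiv (subgroupOfEquivOfLe habC).symm.toEquiv _ _ fun d => ?_
    rw [inc_single]
    rfl
  · intro t ht
    have htN : t ∈ normalizer (D : Set G) := ht.1
    have hcj1 : ∀ x ∈ centralizer (D : Set G), t * x * t⁻¹ ∈ centralizer (D : Set G) :=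
      fun x hx => P179B.conj_mem_centralizer_of_mem_normalizer htN hx
    have hcj2 : ∀ x ∈ centralizer (D : Set G), t⁻¹ * x * t⁻¹⁻¹ ∈ centralizer (D : Set G) :=
      fun x hx => P179B.conj_mem_centralizer_of_mem_normalizer (inv_mem htN) hx
    obtain ⟨j2, hj2⟩ := exists_inc (sup_cn hcj1 (brk_sup D i))
    have hte : cn t (mkF (eH (centralizer (D : Set G)) l)) =
        mkF (eH (centralizer (D : Set G)) l) := by
      rw [cn_mkF, cj_eD hl hDp habC (by rw [hTT]; exact ht)]
    obtain ⟨x, y, hxy⟩ := hD1.2 j2 (inc_inj _ (by rw [map_mul, hj2, ← cn_mul', hjj]))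
      (by
        rintro rfl
        rw [map_zero] at hj2
        apply hj0
        rw [← cn_inv_cn t (brk D i), ← hj2, cn_zero])
      (hbj j2 (by
        rw [hj2]
        conv_lhs => rw [← hte]
        rw [← cn_mul']
        congr 1
        exact hei D le_rfl)) (locJ_inc (by rw [hj2]; exact locJ_cn hcj1 hcj2 hlocj))
    refine ⟨inc k _ x, inc k _ y, inc_sup _ x, inc_sup _ y, fun h => hxy ?_⟩
    rw [← isNilpotent_inc, map_mul, map_mul, map_mul, map_mul, hj', hj2]
    exact h

end Main

end Vale.P179.H531
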