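import Vale.Agent.P179.H531.St3
import Vale.Agent.P179.Allb.DefsR
import Vale.Agent.P179.H737.Form
import Vale.Agent.P179.H417.Perm2
import Vale.Agent.P179.H365.Crn

/-!
# START (ALLB): the final assembly
-/

set_option autoImplicit false

namespace Vale.P179.H531

open Subgroup P179H46 P179H524 P179H364W P179C Vale.P179.Allb Vale.P179.Sgn Vale.P179.H875
  Vale.P179.H737 Module

open P179B (inertialGroup inertialIndex regularElements)

open scoped Classical

set_option linter.unusedSectionVars false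

section Grp

variable {G : Type} [Group G] [Fintype G] {D T : Subgroup G}

/-- conjugation by an element of the normaliser -/
noncomputable def tauD {t : G} (ht : t ∈ normalizer (D : Set G)) : MulAut D where
  toFun x := ⟨t * x * t⁻¹, (mem_normalizer_iff.1 ht _).1 x.2⟩
  invFun x := ⟨t⁻¹ * x * t, by
    have := (mem_normalizer_iff.1 (inv_mem ht) (x : G)).1 x.2
    rwa [inv_inv] at this⟩
  left_inv x := Subtype.ext (by
    change t⁻¹ * (t * x * t⁻¹) * t = x
    group)
  right_inv x := Subtype.ext (by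
    change t * (t⁻¹ * x * t) * t⁻¹ = x
    group)
  map_mul' x y := Subtype.ext (by
    change t * (x * y) * t⁻¹ = t * x * t⁻¹ * (t * y * t⁻¹)
    group)

theorem coe_tauD {t : G} (ht : t ∈ normalizer (D : Set G)) (x : D) :
    ((tauD ht x : D) : G) = t * x * t⁻¹ := rfl

theorem coe_tauD_pow {t : G} (ht : t ∈ normalizer (D : Set G)) (n : ℕ) (x : D) :
    (((tauD ht ^ n) x : D) : G) = t ^ n * x * (t ^ n)⁻¹ := by
  induction n with
  | zero => simp
  | succ n ih =>
    rw [pow_succ', MulAut.mul_apply, coe_tauD, ih, pow_succ']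
    group

/-- the centraliser is normal in `T`, so powers with the index lie in it -/
theorem pow_relIndex_mem (hT : T ≤ normalizer (D : Set G)) (hCT : centralizer (D : Set G) ≤ T)
    {t : G} (ht : t ∈ T) :
    t ^ (centralizer (D : Set G)).relIndex T ∈ centralizer (D : Set G) := by
  have hn : ((centralizer (D : Set G)).subgroupOf T).Normal := by
    constructor
    intro c hc g
    rw [mem_subgroupOf] at hc ⊢
    exact P179B.conj_mem_centralizer_of_mem_normalizer (hT g.2) hc
  have h1 := Subgroup.pow_index_mem ((centralizer (D : Set G)).subgroupOf T) (⟨t, ht⟩ : T)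
  rw [mem_subgroupOf] at h1
  exact h1

/-- if `T / C` is generated by `t` then the order of `t` modulo `C` is the index -/
theorem relIndex_dvd (hT : T ≤ normalizer (D : Set G)) (hCT : centralizer (D : Set G) ≤ T)
    {t : G} (ht : t ∈ T) (hgen : ∀ n ∈ T, ∃ i : ℕ, t ^ i * n ∈ centralizer (D : Set G)) {m : ℕ}
    (hm : t ^ m ∈ centralizer (D : Set G)) : (centralizer (D : Set G)).relIndex T ∣ m := by
  have hn : ((centralizer (D : Set G)).subgroupOf T).Normal := by
    constructor
    intro c hc g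
    rw [mem_subgroupOf] at hc ⊢
    exact P179B.conj_mem_centralizer_of_mem_normalizer (hT g.2) hc
  let q := QuotientGroup.mk' ((centralizer (D : Set G)).subgroupOf T)
  have h1 : ∀ y : T ⧸ (centralizer (D : Set G)).subgroupOf T, y ∈ zpowers (q ⟨t, ht⟩) := by
    intro y
    obtain ⟨n, rfl⟩ := QuotientGroup.mk'_surjective _ y
    obtain ⟨i, hi⟩ := hgen n n.2
    have h2 : q (⟨t, ht⟩ ^ i * n) = 1 := (QuotientGroup.eq_one_iff _).2 (mem_subgroupOf.2 hi)
    rw [map_mul, map_pow] at h2
    change q n ∈ _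
    rw [eq_inv_of_mul_eq_one_right h2]
    exact inv_mem (pow_mem (mem_zpowers _) i)
  have h2 := orderOf_eq_card_of_forall_mem_zpowers h1
  have h3 : orderOf (q ⟨t, ht⟩) ∣ m := by
    apply orderOf_dvd_of_pow_eq_one
    rw [← map_pow]
    exact (QuotientGroup.eq_one_iff _).2 (mem_subgroupOf.2 hm)
  rw [h2] at h3
  exact h3

end Grp

section Asm

variable {p : ℕ} [hp : Fact p.Prime] {k : Type} [Field k] [IsAlgClosed k] [CharP k p] {G : Type}
  [Group G] [Fintype G]

/-- the coefficient of `1` -/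
noncomputable def c1 (k : Type) [Field k] (G : Type) [Group G] : MonoidAlgebra k G →ₗ[k] k where
  toFun a := a.coeff 1
  map_add' a b := by rw [MonoidAlgebra.coeff_add, Finsupp.add_apply]
  map_smul' c a := by rw [MonoidAlgebra.coeff_smul, Finsupp.smul_apply]; rfl

theorem c1_mul_sg (a : MonoidAlgebra k G) (g : G) : c1 k G (a * P179H364W.sg g) = a.coeff g⁻¹ := by
  change (a * P179H364W.sg g).coeff 1 = _
  rw [P179H364W.sg, MonoidAlgebra.coeff_mul_single_apply, one_mul, mul_one]

theorem c1_sg_mul (a : MonoidAlgebra k G) (g : G) : c1 k G (P179H364W.sg g * a) = a.coeff g⁻¹ := by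
  change (P179H364W.sg g * a).coeff 1 = _
  rw [P179H364W.sg, MonoidAlgebra.coeff_single_mul_apply, one_mul, mul_one]

theorem c1_comm (a b : MonoidAlgebra k G) : c1 k G (a * b) = c1 k G (b * a) := by
  rw [P179H364W.eq_sum b, Finset.mul_sum, Finset.sum_mul, map_sum, map_sum]
  refine Finset.sum_congr rfl fun g _ => ?_
  rw [mul_smul_comm, smul_mul_assoc, map_smul, map_smul, c1_mul_sg, c1_sg_mul]

theorem c1_nd (a : MonoidAlgebra k G) (h : ∀ b, c1 k G (a * b) = 0) : a = 0 := by
  ext g
  have := h (P179H364W.sg g⁻¹)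
  rw [c1_mul_sg, inv_inv] at this
  exact this

end Asm

section Fin

variable {p : ℕ} [hp : Fact p.Prime] {k : Type} [Field k] [IsAlgClosed k] [CharP k p] {G : Type}
  [Group G] [Fintype G]

/-- the homomorphism `D → k[G]` -/
noncomputable def uG (k : Type) [Field k] {D : Subgroup G} {D' : Type} [CommGroup D']
    (f : D' ≃* D) : D' →* MonoidAlgebra k G where
  toFun d := P179H364W.sg (f d : G)
  map_one' := by rw [map_one]; rfl
  map_mul' x y := by rw [map_mul, P179H364W.sg_mul]; rfl

theorem uG_apply {D : Subgroup G} {D' : Type} [CommGroup D']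
    (f : D' ≃* D) (d : D') : uG k f d = P179H364W.sg (f d : G) := rfl

theorem fxd_iff {D : Subgroup G} {a : MonoidAlgebra k G} :
    Fxd D a ↔ ∀ d ∈ D, P179H364W.sg d * a = a * P179H364W.sg d := by
  refine forall₂_congr fun d _ => ?_
  unfold cn
  constructor
  · intro h
    conv_rhs => rw [← h]
    rw [mul_assoc, P179H364W.sg_inv_mul, mul_one]
  · intro h
    rw [h, mul_assoc, P179H364W.sg_mul_inv, mul_one]

/-- **the algebra `i k[G] i`** -/
theorem exists_AX {D T : Subgroup G} {i : MonoidAlgebra k G} {E : Set G → MonoidAlgebra k G}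
    (h : SD p D T i E) (he : IsIdempotentElem i) {D' : Type} [CommGroup D'] (f : D' ≃* D)
    (τ : MulAut D') {t : G} (hτ : ∀ n : ℕ, ∀ x, (f ((τ ^ n) x) : G) = t ^ n * f x * (t ^ n)⁻¹)
    (hgen : ∀ n ∈ T, ∃ i : ℕ, t ^ i * n ∈ centralizer (D : Set G)) {e : ℕ} (he0 : e ≠ 0)
    {n : MonoidAlgebra k G} (hin : i * n = n) (hni : n * i = n) (hne : n ^ e * i = i)
    (hnu : ∀ d, n * uG k f d = uG k f (τ d) * n) (b : Basis G k (MonoidAlgebra k G))
    (hb1 : ∀ x ∈ D, ∀ y ∈ D, ∀ g, P179H364W.sg x * b g * P179H364W.sg y = b (x * g * y))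
    (hb2 : ∀ g, i * b g * i = b g ∨ i * b g * i = 0)
    (hb3 : ∀ g, i * b g * i = b g → ∃ θ ∈ T, ∀ x ∈ D, g⁻¹ * x * g ∈ D →
      g⁻¹ * x * g = θ⁻¹ * x * θ)
    (hb4 : Nat.card {g : G // g ∈ centralizer (D : Set G) ∧ i * b g * i = b g} = Nat.card D) :
    Nonempty (AX k D' he.Corner τ e) := by
  have hiu : ∀ d, i * uG k f d = uG k f d * i := fun d =>
    (fxd_iff.1 h.fxd _ (f d).2).symm
  let π : MonoidAlgebra k G →ₗ[k] MonoidAlgebra k G :=
    (cvalL (k := k) he).comp (cmkL (k := k) he)
  have hπ : ∀ a, π a = i * a * i := fun a => rfl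
  obtain ⟨d, hd⟩ := H417.range_basis b π (fun g => hb2 g) (cvalL (k := k) he)
    (cval_injective he) (fun m => by
      rw [hπ, cvalL_apply, left_cval, cval_right]) (fun v hv => ⟨cmkL (k := k) he v, hv⟩)
  have hd' : ∀ g, cval he (d g) = b g.1 := fun g => hd g
  have hcor : ∀ g : {g // π (b g) = b g}, i * b g.1 * i = b g.1 := fun g => g.2
  have hlu : ∀ (x : D') (g : {g // π (b g) = b g}),
      cval he (chom he (uG k f) hiu x * d g) = b (f x * g.1) := by
    intro x g
    rw [cval_chom_mul, hd', uG_apply]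
    have := hb1 _ (f x).2 1 (one_mem D) g.1
    rwa [P179H364W.sg_one, mul_one, mul_one] at this
  have hru : ∀ (x : D') (g : {g // π (b g) = b g}),
      cval he (d g * chom he (uG k f) hiu x) = b (g.1 * f x) := by
    intro x g
    rw [cval_mul_chom, hd', uG_apply]
    have := hb1 1 (one_mem D) _ (f x).2 g.1
    rwa [P179H364W.sg_one, one_mul, one_mul] at this
  have hcom : ∀ (x y : D') (g : {g // π (b g) = b g}),
      chom he (uG k f) hiu x * d g = d g * chom he (uG k f) hiu y ↔
        (f x : G) * g.1 = g.1 * f y := by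
    intro x y g
    rw [← (cval_injective he).eq_iff, hlu, hru, b.injective.eq_iff]
  have hcen : ∀ g : {g // π (b g) = b g}, (∀ x ∈ (⊤ : Subgroup D'),
      chom he (uG k f) hiu x * d g = d g * chom he (uG k f) hiu x) ↔
        g.1 ∈ centralizer (D : Set G) := by
    intro g
    rw [mem_centralizer_iff]
    constructor
    · intro h1 x hx
      have h2 := (hcom (f.symm ⟨x, hx⟩) (f.symm ⟨x, hx⟩) g).1 (h1 _ (mem_top _))
      rwa [MulEquiv.apply_symm_apply] at h2
    · intro h1 x _
      exact (hcom x x g).2 (h1 _ (f x).2)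
  have hrank : Nat.card {g : {g // π (b g) = b g} // ∀ x ∈ (⊤ : Subgroup D'),
      chom he (uG k f) hiu x * d g = d g * chom he (uG k f) hiu x} = Nat.card D' := by
    rw [Nat.card_congr f.toEquiv, ← hb4]
    let F : {g : {g // π (b g) = b g} // ∀ x ∈ (⊤ : Subgroup D'),
      chom he (uG k f) hiu x * d g = d g * chom he (uG k f) hiu x} →
        {g : G // g ∈ centralizer (D : Set G) ∧ i * b g * i = b g} :=
      fun g => ⟨g.1.1, (hcen g.1).1 g.2, hcor g.1⟩
    refine Nat.card_congr (Equiv.ofBijective F ⟨?_, ?_⟩)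
    · intro g g' hgg
      have h1 : (F g).1 = (F g').1 := by rw [hgg]
      exact Subtype.ext (Subtype.ext h1)
    · intro g
      have h1 : π (b g.1) = b g.1 := (hπ _).trans g.2.2
      exact ⟨⟨⟨g.1, h1⟩, (hcen ⟨g.1, h1⟩).2 g.2.1⟩, rfl⟩
  refine ⟨{
    u := chom he (uG k f) hiu
    t := cform he (c1 k G)
    I := {g // π (b g) = b g}
    fin := Fintype.ofFinite _
    b := d
    tc := cform_comm he _ c1_comm
    nd := cform_nd he _ c1_comm c1_nd
    stab := ?_
    n := cmk he n
    npow := ?_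
    nu := ?_
    tw := ?_
    loc := ?_
    rank := ?_ }⟩
  · intro x y g
    have h1 := hb1 _ (f x).2 _ (f y).2 g.1
    refine ⟨⟨f x * g.1 * f y, ?_⟩, ?_⟩
    · rw [hπ, ← h1]
      have h2 : i * (P179H364W.sg (f x : G) * b g.1 * P179H364W.sg (f y : G)) * i =
          P179H364W.sg (f x : G) * (i * b g.1 * i) * P179H364W.sg (f y : G) := by
        have e1 : i * P179H364W.sg (f x : G) = P179H364W.sg (f x : G) * i := hiu x
        have e2 : i * P179H364W.sg (f y : G) = P179H364W.sg (f y : G) * i := hiu y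
        calc i * (P179H364W.sg (f x : G) * b g.1 * P179H364W.sg (f y : G)) * i
            = i * P179H364W.sg (f x : G) * b g.1 * (P179H364W.sg (f y : G) * i) := by
              simp only [mul_assoc]
          _ = _ := by rw [e1, ← e2]; simp only [mul_assoc]
      rw [h2, hcor]
    · apply cval_injective he
      rw [hd', ← h1, cval_mul_chom, cval_chom_mul, hd']
      rfl
  · obtain ⟨m, rfl⟩ := Nat.exists_eq_succ_of_ne_zero he0
    apply cval_injective he
    rw [Nat.succ_eq_add_one, cval_pow, cval_cmk, hin, hni, cval_one]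
    rw [Nat.succ_eq_add_one, pow_succ, mul_assoc, hni, ← pow_succ] at hne
    exact hne
  · intro x
    apply cval_injective he
    rw [cval_mul_chom, cval_chom_mul, cval_cmk, hin, hni, hnu]
  · intro g
    obtain ⟨θ, hθ, hg⟩ := hb3 g.1 (hcor g)
    obtain ⟨m, hm⟩ := hgen θ hθ
    refine ⟨m, fun x y hxy => ?_⟩
    have h1 := (hcom x y g).1 hxy
    have h2 : g.1⁻¹ * (f x : G) * g.1 = f y := by rw [mul_assoc, h1, inv_mul_cancel_left]
    have h3 := hg (f x) (f x).2 (by rw [h2]; exact (f y).2)
    rw [h2] at h3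
    apply f.injective
    apply Subtype.ext
    rw [h3, hτ]
    have htD : t ^ m * (f x : G) * (t ^ m)⁻¹ ∈ D := by
      rw [← hτ]
      exact (f _).2
    have h4 := mem_centralizer_iff.1 hm _ htD
    have h5 : θ = (t ^ m)⁻¹ * (t ^ m * θ) := by group
    calc θ⁻¹ * (f x : G) * θ
        = (t ^ m * θ)⁻¹ * (t ^ m * (f x : G) * (t ^ m)⁻¹ * (t ^ m * θ)) := by group
      _ = (t ^ m * θ)⁻¹ * (t ^ m * θ * (t ^ m * (f x : G) * (t ^ m)⁻¹)) := by rw [h4]
      _ = t ^ m * (f x : G) * (t ^ m)⁻¹ := by rw [inv_mul_cancel_left]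
  · intro a ha
    have haf : Fxd D (cval he a) := by
      rw [fxd_iff]
      intro x hx
      have h1 := congrArg (cval he) (ha (f.symm ⟨x, hx⟩))
      rw [cval_chom_mul, cval_mul_chom, uG_apply, MulEquiv.apply_symm_apply] at h1
      exact h1
    rcases h.loc (cval he a) haf (left_cval he a) (cval_right he a) with h1 | ⟨a', e1, e2, e3, e4⟩
    · exact Or.inr ((isNilpotent_iff he a).2 h1)
    · left
      refine ⟨⟨a, cmk he a', ?_, ?_⟩, rfl⟩
      · apply cval_injective he
        rw [cval_mul, cval_cmk, cval_one, e1, e2, e3]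
      · apply cval_injective he
        rw [cval_mul, cval_cmk, cval_one, e1, e2, e4]
  · exact hrank

end Fin

end Vale.P179.H531
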