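import Vale.Agent.P179.H531.St4

/-!
# START (ALLB): `CENT → NEWN → BAS → STARTR` and `START`
-/

set_option autoImplicit false

namespace Vale.P179.H531

open Subgroup P179H46 P179H524 P179H364W P179C Vale.P179.Allb Vale.P179.Sgn Vale.P179.H875
  Vale.P179.H737 Module

open P179B (inertialGroup inertialIndex regularElements)

open scoped Classical

set_option linter.unusedSectionVars false

theorem startr_of (hC : CENT) (hN : NEWN) (hBAS : BAS) : STARTR := by
  intro p _ k _ _ _ G _ _ B hB D hD hab hD1 b hb hbB t ht hgen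
  have : Fintype G := Fintype.ofFinite G
  obtain ⟨hp, i, E, h, hBi⟩ := exists_SD (p := p) hC hB hD hab hb hbB
  have hNt : t ∈ normalizer (D : Set G) := h.TN ht
  -- the group
  let hcg : CommGroup D :=
    { (inferInstance : Group D) with
      mul_comm := fun x y => Subtype.ext (hab x x.2 y y.2) }
  have he0 : inertialIndex D b ≠ 0 := by
    unfold inertialIndex Subgroup.relIndex
    exact Subgroup.index_ne_zero_of_finite
  have hpow : t ^ inertialIndex D b ∈ centralizer (D : Set G) := pow_relIndex_mem h.TN h.CT ht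
  let τ : MulAut D := tauD hNt
  have hτ : ∀ n : ℕ, ∀ x : D, (((τ ^ n) x : D) : G) = t ^ n * x * (t ^ n)⁻¹ :=
    fun n x => coe_tauD_pow hNt n x
  have hτe : τ ^ inertialIndex D b = 1 := by
    ext x
    rw [hτ, MulAut.one_apply]
    have h1 := mem_centralizer_iff.1 hpow x x.2
    rw [← h1, mul_inv_cancel_right]
  have hcop : (inertialIndex D b).Coprime p :=
    ((Nat.Prime.coprime_iff_not_dvd Fact.out).2 hp).symm
  -- the new element `n`
  obtain ⟨x, y, hx, hy, hxy⟩ := h.two t ht
  have hfx : ∀ {a : MonoidAlgebra k G}, Sup (centralizer (D : Set G)) a →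
      ∀ d : D, a * uG k (MulEquiv.refl D) d = uG k (MulEquiv.refl D) d * a :=
    fun ha d => (fxd_iff.1 ha.fxd _ d.2).symm
  have hcni : Fxd D (cn t i) := by
    intro d hd
    have h1 : cn d (cn t i) = cn t (cn (t⁻¹ * d * t) i) := by
      rw [← cn_mul, ← cn_mul]
      congr 1
      group
    rw [h1, h.fxd]
    have := (mem_normalizer_iff.1 (inv_mem hNt) d).1 hd
    rwa [inv_inv] at this
  have hbc : brk D (cn t i) = cn t (brk D i) := by
    refine brk_cn t D fun x => ?_
    constructor
    · intro hx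
      have := P179B.conj_mem_centralizer_of_mem_normalizer (inv_mem hNt) hx
      rwa [inv_inv] at this
    · intro hx
      have := P179B.conj_mem_centralizer_of_mem_normalizer hNt hx
      have e1 : t * (t⁻¹ * x * t) * t⁻¹ = x := by group
      rwa [e1] at this
  obtain ⟨n, hn1, hn2, hn3, hn4⟩ := hN p k (MonoidAlgebra k G) D (uG k (MulEquiv.refl D)) τ
    (inertialIndex D b) he0 hcop hτe (sg t) (sg t⁻¹) (sg_mul_inv t) (sg_inv_mul t) (fun d => by
      rw [uG_apply, uG_apply, MulEquiv.refl_apply, MulEquiv.refl_apply, P179H364W.sg_mul,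
        P179H364W.sg_mul]
      congr 1
      have := hτ 1 d
      rw [pow_one, pow_one] at this
      rw [this]
      group) i h.idem (fun d => (fxd_iff.1 h.fxd _ d.2).symm)
    (fun a ha => h.loc a (fxd_iff.2 fun d hd => (ha ⟨d, hd⟩).symm)) x y (hfx hx) (hfx hy)
    (fun hnil => hxy (by
      have h1 := isNilpotent_brk h.pgr ((((h.fxd.mul hy.fxd).mul hcni).mul hx.fxd).mul h.fxd) hnil
      rwa [brk_mul h.pgr (((h.fxd.mul hy.fxd).mul hcni).mul hx.fxd) h.fxd,
        brk_mul h.pgr ((h.fxd.mul hy.fxd).mul hcni) hx.fxd,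
        brk_mul h.pgr (h.fxd.mul hy.fxd) hcni, brk_mul h.pgr h.fxd hy.fxd, brk_of_sup hx,
        brk_of_sup hy, hbc] at h1))
  obtain ⟨bb, hb1, hb2, hb3, hb4⟩ := hBAS p k G D _ i E h
  have he : IsIdempotentElem i := h.idem
  obtain ⟨A⟩ := exists_AX h he (MulEquiv.refl D) τ (t := t) hτ hgen he0 hn1 hn2 hn3 hn4 bb hb1
    hb2 hb3 hb4
  have hnt : Nontrivial D := (nontrivial_iff_ne_bot D).2 hD1
  refine ⟨D, hcg, inferInstance, hnt, τ, he.Corner, inferInstance, inferInstance, A,
    MulEquiv.refl D, he0,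
    ⟨h.pgr, hτe, hcop⟩, fun x => ?_, ?_⟩
  · have := hτ 1 x
    rw [pow_one, pow_one] at this
    exact this
  · exact H365.crn p k G B i hB he hBi he.Corner (cvalL (k := k) he) (cval_injective he)
      (fun x y => rfl) rfl (fun a ha => ⟨cmk he a, ha⟩)

theorem start_of (hS : STARTR) : START := by
  intro p _ k _ _ _ G _ _ B hB D hD hab hD1 b hb hbB hreg ⟨t, ht, hgen⟩
  obtain ⟨D', _, _, _, τ, Λ, _, _, A, f, he0, hτ, hf, hl⟩ :=
    hS p k G B hB D hD hab hD1 b hb hbB t ht hgen
  have : Fintype G := Fintype.ofFinite G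
  refine ⟨D', _, inferInstance, inferInstance, τ, Λ, _, _, A, he0, ⟨hτ, ?_⟩, hl⟩
  intro m d hd hdm
  have hfm : ∀ (m : ℕ) (x : D'), (f ((τ ^ m) x) : G) = t ^ m * f x * (t ^ m)⁻¹ := by
    intro m
    induction m with
    | zero => intro x; simp
    | succ m ih =>
      intro x
      rw [pow_succ', MulAut.mul_apply, hf, ih, pow_succ']
      group
  have h1 := hfm m d
  rw [hdm] at h1
  have h2 : ((f d : D) : G) ≠ 1 := by
    intro h3
    apply hd
    apply f.injective
    rw [map_one]
    exact Subtype.ext h3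
  have hT : inertialGroup D b ≤ normalizer (D : Set G) := fun n hn => hn.1
  have h3 := (hreg _ (f d).2 h2).2 (t ^ m) (pow_mem ht m) h1.symm
  exact relIndex_dvd hT (D := D) (by
    intro c hc
    refine ⟨?_, fun x y h => ?_⟩
    · rw [mem_normalizer_iff]
      intro d
      constructor
      · intro hd
        have h1 := mem_centralizer_iff.1 hc d hd
        rw [← h1, mul_inv_cancel_right]
        exact hd
      · intro hd
        have h1 := mem_centralizer_iff.1 hc _ hd
        have h2 : d = c * d * c⁻¹ := by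
          have h3 : c * d = c * (c * d * c⁻¹) := by rw [← h1]; group
          exact mul_left_cancel h3
        rw [h2]
        exact hd
    · have h1 := (P179C.mem_center_iff _).1 hb.1
      have h2 : y = (⟨c, hc⟩ : centralizer (D : Set G)) * x * (⟨c, hc⟩)⁻¹ := Subtype.ext h
      rw [h2]
      exact h1 _ _) ht hgen h3

end Vale.P179.H531
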