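import Mathlib

/-!
# Sums of invariant functions under the action of a `p`-group, in characteristic `p`
-/

namespace Vale.P179.H531

open Finset

/-- The sum of an invariant function over a finite set on which a `p`-group acts is the sum over
the fixed points, in characteristic `p`. -/
theorem sum_eq_sum_fixed {p : ℕ} [hp : Fact p.Prime] {k : Type*} [Field k] [CharP k p]
    {P : Type*} [Group P] (hP : IsPGroup p P) {α : Type*} [Fintype α] [MulAction P α]
    (f : α → k) (hf : ∀ (g : P) (a : α), f (g • a) = f a)
    [DecidablePred fun a : α => ∀ g : P, g • a = a] :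
    ∑ a, f a = ∑ a with (∀ g : P, g • a = a), f a := by
  classical
  have key : ∀ c : k, ((univ.filter fun a => f a = c).card : k) =
      (((univ.filter fun a : α => ∀ g : P, g • a = a).filter fun a => f a = c).card : k) := by
    intro c
    let S : SubMulAction P α :=
      { carrier := {a | f a = c}
        smul_mem' := fun g a ha => by
          change f (g • a) = c
          rw [hf]; exact ha }
    have : Finite S := Subtype.finite
    have h1 := hP.card_modEq_card_fixedPoints S
    have e1 : Nat.card S = (univ.filter fun a => f a = c).card := by
      rw [Nat.card_eq_fintype_card]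
      exact Fintype.card_of_subtype _ (fun a => by simp; rfl)
    have e2 : Nat.card (MulAction.fixedPoints P S) =
        ((univ.filter fun a : α => ∀ g : P, g • a = a).filter fun a => f a = c).card := by
      rw [← Fintype.card_coe, ← Nat.card_eq_fintype_card]
      refine Nat.card_congr
        { toFun := fun x => ⟨x.1.1, ?_⟩
          invFun := fun x => ⟨⟨x.1, ?_⟩, ?_⟩
          left_inv := fun x => rfl
          right_inv := fun x => rfl }
      · rw [mem_filter, mem_filter]
        exact ⟨⟨mem_univ _, fun g => congrArg Subtype.val (x.2 g)⟩, x.1.2⟩
      · exact (mem_filter.1 x.2).2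
      · intro g
        exact Subtype.ext ((mem_filter.1 (mem_filter.1 x.2).1).2 g)
    rw [← e1, ← e2]
    exact CharP.natCast_eq_natCast' k p h1
  have h2 : ∀ (s : Finset α), ∑ a ∈ s, f a =
      ∑ c ∈ univ.image f, ((s.filter fun a => f a = c).card : k) * c := by
    intro s
    rw [← Finset.sum_fiberwise_of_maps_to (s := s) (t := univ.image f) (g := f)
      (fun a _ => mem_image_of_mem f (mem_univ a)) f]
    refine Finset.sum_congr rfl fun c _ => ?_
    rw [Finset.sum_congr rfl (g := fun _ => c) (fun a ha => (mem_filter.1 ha).2), sum_const,
      nsmul_eq_mul]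
  rw [h2 univ, h2 (univ.filter _)]
  exact Finset.sum_congr rfl fun c _ => by rw [key c]

end Vale.P179.H531
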